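import Vale.Agent.P286.H341.Green

/-!
# The operators on an exterior algebra
-/

namespace Vale.Agent.P286.H341

open TensorProduct

noncomputable section

set_option linter.unusedSectionVars false

/-- The exterior algebra with generators indexed by `α`. -/
abbrev Ex (α : Type) : Type := ExteriorAlgebra ℂ (α → ℂ)

namespace Ex

variable {α : Type}

/-- The linear form `x ↦ x a`. -/
def cf (a : α) : Module.Dual ℂ (α → ℂ) := LinearMap.proj a

/-- The generator. -/
def gn [DecidableEq α] (a : α) : Ex α := ExteriorAlgebra.ι ℂ (Pi.single a 1)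

/-- Multiplication by the generator. -/
def th [DecidableEq α] (a : α) : Module.End ℂ (Ex α) := LinearMap.mulLeft ℂ (gn a)

/-- Contraction. -/
def io (a : α) : Module.End ℂ (Ex α) := CliffordAlgebra.contractLeft (cf a)

/-- The sign. -/
def ep : Module.End ℂ (Ex α) := (CliffordAlgebra.involute : Ex α →ₐ[ℂ] Ex α).toLinearMap

theorem io_ι_mul (a : α) (v : α → ℂ) (x : Ex α) :
    io a (ExteriorAlgebra.ι ℂ v * x) = v a • x - ExteriorAlgebra.ι ℂ v * io a x :=
  CliffordAlgebra.contractLeft_ι_mul _ _ _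

theorem io_one (a : α) : io a (1 : Ex α) = 0 := CliffordAlgebra.contractLeft_one _ _

theorem ep_one : ep (1 : Ex α) = 1 := map_one (CliffordAlgebra.involute : Ex α →ₐ[ℂ] Ex α)

theorem ep_mul (x y : Ex α) : ep (x * y) = ep x * ep y :=
  map_mul (CliffordAlgebra.involute : Ex α →ₐ[ℂ] Ex α) x y

theorem ep_ι (v : α → ℂ) : ep (ExteriorAlgebra.ι ℂ v) = - ExteriorAlgebra.ι ℂ v :=
  CliffordAlgebra.involute_ι v

theorem ep_ι_mul (v : α → ℂ) (x : Ex α) :
    ep (ExteriorAlgebra.ι ℂ v * x) = -(ExteriorAlgebra.ι ℂ v * ep x) := by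
  rw [ep_mul, ep_ι, neg_mul]

theorem ep_ep (x : Ex α) : ep (ep x) = x := CliffordAlgebra.involute_involute x

theorem ind {p : Ex α → Prop} (h1 : p 1) (hs : ∀ (c : ℂ) x, p x → p (c • x))
    (ha : ∀ x y, p x → p y → p (x + y)) (hm : ∀ v x, p x → p (ExteriorAlgebra.ι ℂ v * x))
    (x : Ex α) : p x := by
  induction x using CliffordAlgebra.left_induction with
  | algebraMap r =>
    have : (algebraMap ℂ (Ex α) r) = r • (1 : Ex α) := Algebra.algebraMap_eq_smul_one r
    exact this ▸ hs r 1 h1
  | add x y hx hy => exact ha _ _ hx hy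
  | ι_mul x v hx => exact hm v x hx

section

variable [DecidableEq α]

theorem th_apply (a : α) (x : Ex α) : th a x = gn a * x := rfl

theorem io_th_apply (a b : α) (x : Ex α) :
    io a (th b x) = (if a = b then x else 0) - th b (io a x) := by
  rw [th_apply, gn, io_ι_mul, Pi.single_apply, ite_smul, one_smul, zero_smul]
  rfl

theorem th_th (a b : α) : (th a : Module.End ℂ (Ex α)) * th b = -(th b * th a) := by
  refine LinearMap.ext fun x => ?_
  rw [LinearMap.neg_apply, Module.End.mul_apply, Module.End.mul_apply, th_apply, th_apply,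
    th_apply, th_apply, ← mul_assoc, ← mul_assoc, ← neg_mul]
  congr 1
  exact eq_neg_of_add_eq_zero_left (ExteriorAlgebra.ι_add_mul_swap _ _)

theorem io_io (a b : α) : (io a : Module.End ℂ (Ex α)) * io b = -(io b * io a) := by
  refine LinearMap.ext fun x => ?_
  exact CliffordAlgebra.contractLeft_comm _ _ x

theorem io_th (a b : α) :
    (io a : Module.End ℂ (Ex α)) * th b + th b * io a = if a = b then 1 else 0 := by
  refine LinearMap.ext fun x => ?_
  rw [LinearMap.add_apply, Module.End.mul_apply, Module.End.mul_apply, io_th_apply]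
  split_ifs <;> simp

theorem ep_th (a : α) : (ep : Module.End ℂ (Ex α)) * th a = -(th a * ep) := by
  refine LinearMap.ext fun x => ?_
  exact ep_ι_mul _ _

theorem ep_io (a : α) : (ep : Module.End ℂ (Ex α)) * io a = -(io a * ep) := by
  refine LinearMap.ext fun x => ?_
  rw [LinearMap.neg_apply, Module.End.mul_apply, Module.End.mul_apply]
  induction x using ind with
  | h1 => rw [io_one, ep_one, io_one, map_zero, neg_zero]
  | hs c x hx => simp only [map_smul, hx, smul_neg]
  | ha x y hx hy => simp only [map_add, hx, hy]; abel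
  | hm v x hx =>
    rw [io_ι_mul, map_sub, map_smul, ep_ι_mul, hx, ep_ι_mul, map_neg, io_ι_mul]
    simp only [mul_neg]
    abel

theorem ep_sq : (ep : Module.End ℂ (Ex α)) * ep = 1 := by
  refine LinearMap.ext fun x => ?_
  exact ep_ep x

/-- The subspaces spanned by the products of less than `k` generators. -/
def fl : ℕ → Submodule ℂ (Ex α)
  | 0 => ⊥
  | k + 1 => Submodule.span ℂ {1} ⊔ ⨆ a : α, (fl k).map (th a)

theorem one_mem_fl (k : ℕ) : (1 : Ex α) ∈ fl (α := α) (k + 1) :=
  Submodule.mem_sup_left (Submodule.mem_span_singleton_self 1)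

theorem th_mem_fl {k : ℕ} {x : Ex α} (a : α) (h : x ∈ fl (α := α) k) :
    th a x ∈ fl (α := α) (k + 1) :=
  Submodule.mem_sup_right (Submodule.mem_iSup_of_mem a ⟨x, h, rfl⟩)

theorem fl_ind {k : ℕ} {p : Ex α → Prop} (h0 : p 0) (h1 : p 1) (hs : ∀ (c : ℂ) x, p x → p (c • x))
    (ha : ∀ x y, p x → p y → p (x + y)) (hm : ∀ a, ∀ x ∈ fl (α := α) k, p (th a x))
    : ∀ x ∈ fl (α := α) (k + 1), p x := by
  intro x hx
  obtain ⟨y, hy, z, hz, rfl⟩ := Submodule.mem_sup.1 hx
  refine ha _ _ ?_ ?_
  · obtain ⟨c, rfl⟩ := Submodule.mem_span_singleton.1 hy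
    exact hs _ _ h1
  · clear hx
    induction hz using Submodule.iSup_induction' with
    | mem a z hz =>
      obtain ⟨w, hw, rfl⟩ := hz
      exact hm a w hw
    | zero => exact h0
    | add z w _ _ hz hw => exact ha _ _ hz hw

theorem fl_mono (k : ℕ) : fl (α := α) k ≤ fl (α := α) (k + 1) := by
  induction k with
  | zero => exact bot_le
  | succ k ih =>
    exact fl_ind (Submodule.zero_mem _) (one_mem_fl _) (fun c x hx => Submodule.smul_mem _ _ hx)
      (fun x y hx hy => Submodule.add_mem _ hx hy) (fun a x hx => th_mem_fl a (ih hx))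

theorem fl_le {j k : ℕ} (h : j ≤ k) : fl (α := α) j ≤ fl (α := α) k := by
  induction k, h using Nat.le_induction with
  | base => exact le_rfl
  | succ k _ ih => exact ih.trans (fl_mono k)

theorem io_mem_fl (a : α) (k : ℕ) : ∀ x ∈ fl (α := α) (k + 1), io a x ∈ fl (α := α) k := by
  induction k with
  | zero =>
    refine fl_ind ?_ ?_ ?_ ?_ ?_
    · rw [map_zero]; exact Submodule.zero_mem _
    · rw [io_one]; exact Submodule.zero_mem _
    · intro c x hx; rw [map_smul]; exact Submodule.smul_mem _ _ hx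
    · intro x y hx hy; rw [map_add]; exact Submodule.add_mem _ hx hy
    · intro b x hx
      rw [(Submodule.mem_bot ℂ).1 hx, map_zero, map_zero]
      exact Submodule.zero_mem _
  | succ k ih =>
    refine fl_ind ?_ ?_ ?_ ?_ ?_
    · rw [map_zero]; exact Submodule.zero_mem _
    · rw [io_one]; exact Submodule.zero_mem _
    · intro c x hx; rw [map_smul]; exact Submodule.smul_mem _ _ hx
    · intro x y hx hy; rw [map_add]; exact Submodule.add_mem _ hx hy
    · intro b x hx
      rw [io_th_apply]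
      refine Submodule.sub_mem _ ?_ (th_mem_fl b (ih x hx))
      split_ifs
      · exact hx
      · exact Submodule.zero_mem _

theorem ep_mem_fl (k : ℕ) : ∀ x ∈ fl (α := α) k, ep x ∈ fl (α := α) k := by
  induction k with
  | zero =>
    intro x hx
    rw [(Submodule.mem_bot ℂ).1 hx, map_zero]
    exact Submodule.zero_mem _
  | succ k ih =>
    refine fl_ind ?_ ?_ ?_ ?_ ?_
    · rw [map_zero]; exact Submodule.zero_mem _
    · rw [ep_one]; exact one_mem_fl _
    · intro c x hx; rw [map_smul]; exact Submodule.smul_mem _ _ hx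
    · intro x y hx hy; rw [map_add]; exact Submodule.add_mem _ hx hy
    · intro b x hx
      have : ep (th b x) = -(th b (ep x)) := ep_ι_mul _ _
      rw [this]
      exact Submodule.neg_mem _ (th_mem_fl b (ih x hx))

variable [Fintype α]

theorem ι_eq (v : α → ℂ) : ExteriorAlgebra.ι ℂ v = ∑ a, v a • gn a := by
  conv_lhs => rw [pi_eq_sum_univ' v]
  rw [map_sum]
  refine Finset.sum_congr rfl fun a _ => ?_
  rw [map_smul, gn]

/-- The number operator. -/
def nb : Module.End ℂ (Ex α) := ∑ a, th a * io a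

theorem nb_apply (x : Ex α) : nb x = ∑ a, th a (io a x) := by
  rw [nb, LinearMap.sum_apply]
  rfl

theorem nb_one : nb (1 : Ex α) = 0 := by
  rw [nb_apply]
  exact Finset.sum_eq_zero fun a _ => by rw [io_one, map_zero]

theorem nb_ι_mul (v : α → ℂ) (x : Ex α) : nb (ExteriorAlgebra.ι ℂ v * x) =
    ExteriorAlgebra.ι ℂ v * x + ExteriorAlgebra.ι ℂ v * nb x := by
  rw [nb_apply, nb_apply, Finset.mul_sum]
  conv_rhs => arg 1; rw [ι_eq, Finset.sum_mul]
  rw [← Finset.sum_add_distrib]
  refine Finset.sum_congr rfl fun a _ => ?_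
  rw [io_ι_mul, map_sub, map_smul, smul_mul_assoc, sub_eq_add_neg]
  congr 1
  rw [th_apply, th_apply, ← mul_assoc, ← mul_assoc, ← neg_mul]
  congr 1
  rw [neg_eq_iff_eq_neg]
  exact eq_neg_of_add_eq_zero_left (ExteriorAlgebra.ι_add_mul_swap _ _)

theorem exists_fl (x : Ex α) : ∃ k, x ∈ fl (α := α) k := by
  induction x using ind with
  | h1 => exact ⟨1, one_mem_fl 0⟩
  | hs c x hx =>
    obtain ⟨k, hk⟩ := hx
    exact ⟨k, Submodule.smul_mem _ _ hk⟩
  | ha x y hx hy =>
    obtain ⟨k, hk⟩ := hx
    obtain ⟨l, hl⟩ := hy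
    exact ⟨max k l, Submodule.add_mem _ (fl_le (le_max_left _ _) hk)
      (fl_le (le_max_right _ _) hl)⟩
  | hm v x hx =>
    obtain ⟨k, hk⟩ := hx
    refine ⟨k + 1, ?_⟩
    rw [ι_eq, Finset.sum_mul]
    refine Submodule.sum_mem _ fun a _ => ?_
    rw [smul_mul_assoc]
    exact Submodule.smul_mem _ _ (th_mem_fl a hk)

end

end Ex

end

end Vale.Agent.P286.H341
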