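import Vale.Agent.P286.H341.Grd2

/-!
# The projection of the Koszul complex to the exterior algebra
-/

namespace Vale.Agent.P286.H341

open TensorProduct MvPolynomial Matrix

noncomputable section

set_option linter.unusedSectionVars false

section LG

variable {α : Type} [Fintype α] [DecidableEq α]

/-- The Chevalley–Eilenberg differential of the exterior algebra. -/
def dLam (c : α → α → α → ℂ) : Module.End ℂ (Ex α) :=
  (-(1 / 2) : ℂ) • ∑ a, ∑ b, ∑ k, c a b k • (Ex.th a * Ex.th b * Ex.io k)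

theorem dLam_apply (c : α → α → α → ℂ) (x : Ex α) : dLam c x =
    (-(1 / 2) : ℂ) • ∑ a, ∑ b, ∑ k, c a b k • Ex.th a (Ex.th b (Ex.io k x)) := by
  rw [dLam, LinearMap.smul_apply, LinearMap.sum_apply]
  congr 1
  refine Finset.sum_congr rfl fun a _ => ?_
  rw [LinearMap.sum_apply]
  refine Finset.sum_congr rfl fun b _ => ?_
  rw [LinearMap.sum_apply]
  rfl

theorem deg_dLam (c : α → α → α → ℂ) :
    Deg (Ex.wt (fun _ => (1 : ℂ))) (Ex.wt (fun _ => (1 : ℂ))) 1 (dLam c) := by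
  refine Deg.smul (Deg.sum fun a _ => Deg.sum fun b _ => Deg.sum fun l _ => Deg.smul ?_ _) _
  have h1 : Deg (Ex.wt (fun _ => (1 : ℂ))) (Ex.wt (fun _ => (1 : ℂ))) 1
      (Ex.th a ∘ₗ Ex.th b ∘ₗ Ex.io l : Module.End ℂ (Ex α)) :=
    (((deg_io _ l).comp (deg_th _ b)).comp (deg_th _ a)).congr (by norm_num)
  exact h1

/-- The homogeneous elements of degree `m`. -/
def Ex.gr (m : ℤ) : Submodule ℂ (Ex α) :=
  LinearMap.ker (Ex.wt (fun _ => (1 : ℂ)) - ((m : ℤ) : ℂ) • LinearMap.id)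

theorem Ex.mem_gr {m : ℤ} {x : Ex α} :
    x ∈ Ex.gr (α := α) m ↔ Ex.wt (fun _ => (1 : ℂ)) x = (m : ℂ) • x := by
  rw [Ex.gr, LinearMap.mem_ker, LinearMap.sub_apply, sub_eq_zero]
  rfl

open H847

/-- The exterior algebra, as a complex. -/
abbrev LG (c : α → α → α → ℂ) (hL : ∀ x : Ex α, dLam c (dLam c x) = 0) : GD where
  V := Ex α
  d := dLam c
  dd := hL
  gr := Ex.gr
  dgr m x hx := by
    rw [Ex.mem_gr] at hx ⊢
    rw [(deg_dLam c).mem hx]
    push_cast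
    rfl

end LG

section Pr

variable {α : Type} [Fintype α] [DecidableEq α] {M : Type} [AddCommGroup M] [Module ℂ M]

/-- The projection defined by a linear form on `M`. -/
def KV.pr (f : M →ₗ[ℂ] ℂ) : KV α M →ₗ[ℂ] Ex α :=
  (TensorProduct.rid ℂ (Ex α)).toLinearMap ∘ₗ TensorProduct.map LinearMap.id f

theorem KV.pr_tt (f : M →ₗ[ℂ] ℂ) (x : Ex α) (m : M) : KV.pr f (tt x m) = f m • x := rfl

theorem KV.pr_tm {f : M →ₗ[ℂ] ℂ} {S : Module.End ℂ (Ex α)} {T : Module.End ℂ M}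
    (h : ∀ m, f (T m) = 0) (v : KV α M) : KV.pr f (tm S T v) = 0 := by
  refine KV.hom_ext (f := KV.pr f ∘ₗ tm S T) (g := 0) (fun x m => ?_) v
  rw [LinearMap.comp_apply, tm_tt, KV.pr_tt, h, zero_smul]
  rfl

theorem KV.pr_tm1 (f : M →ₗ[ℂ] ℂ) (S : Module.End ℂ (Ex α)) (v : KV α M) :
    KV.pr f (tm S 1 v) = S (KV.pr f v) := by
  refine KV.hom_ext (f := KV.pr f ∘ₗ tm S 1) (g := S ∘ₗ KV.pr f) (fun x m => ?_) v
  rw [LinearMap.comp_apply, tm_tt, KV.pr_tt, LinearMap.comp_apply, KV.pr_tt, map_smul]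
  rfl

end Pr

namespace SD

variable {α : Type} [Fintype α] [DecidableEq α] {c : α → α → α → ℂ} {n : ℕ} {S : Type}
    [CommRing S] [Algebra ℂ S] (d : SD c n S)

/-- The Koszul complex. -/
abbrev KC : Type := KV α (KV (Fin n) S)

/-- The projection of the Koszul complex to the exterior algebra. -/
def pr : KV α (KV (Fin n) S) →ₗ[ℂ] Ex α := KV.pr (KV.aug d.ag.toLinearMap)

theorem pr_tt (x : Ex α) (z : Ex (Fin n)) (f : S) :
    d.pr (tt x (tt z f)) = (Ex.aug z * d.ag f) • x := rfl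

theorem aug_eq_zero {T : Module.End ℂ (KV (Fin n) S)} (h : d.pj * T = 0) (m : KV (Fin n) S) :
    KV.aug d.ag.toLinearMap (T m) = 0 := by
  have h1 := LinearMap.congr_fun h m
  rw [Module.End.mul_apply, pj_apply] at h1
  have h2 := congrArg (KV.aug d.ag.toLinearMap) h1
  rw [map_smul, KV.aug_tt, map_one, one_mul] at h2
  change _ • d.ag (1 : S) = KV.aug d.ag.toLinearMap 0 at h2
  rw [map_one, map_zero, smul_eq_mul, mul_one] at h2
  exact h2

theorem pr_D (v : KV α (KV (Fin n) S)) : d.pr (d.kd'.D v) = dLam c (d.pr v) := by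
  rw [KD.D, KD.dce_eq, LinearMap.add_apply, LinearMap.add_apply, LinearMap.sub_apply, map_add,
    map_add, map_sub]
  have h1 : d.pr ((∑ a, tm (Ex.th a) (d.kd'.rho a)) v) = 0 := by
    rw [LinearMap.sum_apply, map_sum]
    exact Finset.sum_eq_zero fun a _ => KV.pr_tm (d.aug_eq_zero (d.kd'.pj_rho a)) v
  have h2 : d.pr (d.kd'.ddl v) = 0 := KV.pr_tm (d.aug_eq_zero d.kd'.pj_dl) v
  have h3 : d.pr (d.kd'.dF v) = 0 := by
    rw [KD.dF, LinearMap.sum_apply, map_sum]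
    exact Finset.sum_eq_zero fun a _ => KV.pr_tm (d.aug_eq_zero (d.kd'.pj_F a)) v
  rw [h1, h2, h3, add_zero, add_zero, zero_sub, pr, KV.pr_tm1, dLam, LinearMap.smul_apply,
    LinearMap.smul_apply, neg_smul]

theorem pi_eq (v : KV α (KV (Fin n) S)) : d.kd'.pi v = tt (d.pr v) (tt 1 1) := by
  let T : Ex α →ₗ[ℂ] KV α (KV (Fin n) S) :=
    { toFun := fun x => tt x (tt 1 1)
      map_add' := fun x y => KV.tt_add x y _
      map_smul' := fun a x => KV.tt_smul a x _ }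
  refine KV.hom_ext (f := d.kd'.pi) (g := T ∘ₗ d.pr) (fun x m => ?_) v
  change tm 1 d.pj (tt x m) = tt (KV.aug d.ag.toLinearMap m • x) (tt 1 1)
  rw [tm_tt, pj_apply, KV.tt_smul, KV.tt_smul']
  rfl

theorem pr_tt_one (x : Ex α) : d.pr (tt x (tt 1 1)) = x := by
  rw [pr_tt, map_one, map_one, one_mul, one_smul]

theorem pr_eq_zero_iff (v : KV α (KV (Fin n) S)) : d.pr v = 0 ↔ d.kd'.pi v = 0 := by
  rw [pi_eq]
  constructor
  · intro h
    rw [h, KV.tt_zero]
  · intro h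
    have := congrArg d.pr h
    rwa [pr_tt_one, map_zero] at this

end SD

namespace SG

variable {α : Type} [Fintype α] [DecidableEq α] {c : α → α → α → ℂ} {n : ℕ} {S : Type}
    [CommRing S] [Algebra ℂ S] {d : SD c n S} (g : SG d)

open H847

theorem aug_g (m : KV (Fin n) S) : KV.aug d.ag.toLinearMap (g.kg.g m) = 0 := by
  have h := g.kg.pj m
  rw [zero_smul, add_zero] at h
  change g.kg.g (KV.aug d.ag.toLinearMap m • tt 1 1) =
    KV.aug d.ag.toLinearMap (g.kg.g m) • tt 1 1 at h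
  have h1 : g.kg.g (tt (1 : Ex (Fin n)) (1 : S)) = 0 := by
    change gt (wx n) (dop g.dS) (tt 1 1) = 0
    have h4 : dop g.dS (1 : S) = 0 := Derivation.map_one_eq_zero _
    rw [gt_tt, Ex.wt_one, KV.tt_zero, h4, KV.tt_zero', add_zero]
  rw [map_smul, h1, smul_zero] at h
  have h2 := congrArg (KV.aug d.ag.toLinearMap) h
  rw [map_zero, map_smul, KV.aug_tt, map_one, one_mul] at h2
  change 0 = _ • d.ag (1 : S) at h2
  rw [map_one, smul_eq_mul, mul_one] at h2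
  exact h2.symm

theorem deg_pr : Deg g.kg.gK (Ex.wt (fun _ => (1 : ℂ))) 0 d.pr := by
  intro v
  rw [zero_smul, add_zero]
  refine KV.hom_ext (f := Ex.wt (fun _ => (1 : ℂ)) ∘ₗ d.pr) (g := d.pr ∘ₗ g.kg.gK)
    (fun x m => ?_) v
  change Ex.wt (fun _ => (1 : ℂ)) (KV.aug d.ag.toLinearMap m • x) =
    KV.pr (KV.aug d.ag.toLinearMap) (gt (fun _ => 1) g.kg.g (tt x m))
  rw [gt_tt, map_add, KV.pr_tt, KV.pr_tt, g.aug_g, zero_smul, add_zero, map_smul]

theorem tt_gr {m : ℤ} {x : Ex α} (hx : x ∈ Ex.gr (α := α) m) :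
    (tt x (tt 1 1) : KV α (KV (Fin n) S)) ∈ g.kg.gr m := by
  rw [KG.mem_gr]
  rw [Ex.mem_gr] at hx
  change gt (fun _ => 1) g.kg.g (tt x (tt 1 1)) = _
  have h1 : g.kg.g (tt (1 : Ex (Fin n)) (1 : S)) = 0 := by
    change gt (wx n) (dop g.dS) (tt 1 1) = 0
    have h4 : dop g.dS (1 : S) = 0 := Derivation.map_one_eq_zero _
    rw [gt_tt, Ex.wt_one, KV.tt_zero, h4, KV.tt_zero', add_zero]
  rw [gt_tt, hx, h1, KV.tt_zero', add_zero, KV.tt_smul]

/-- The square of the differential of the exterior algebra. -/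
theorem dLam_sq (hD : ∀ v, d.kd'.D (d.kd'.D v) = 0) (x : Ex α) : dLam c (dLam c x) = 0 := by
  have h := congrArg d.pr (hD (tt x (tt 1 1)))
  rwa [d.pr_D, d.pr_D, d.pr_tt_one, map_zero] at h

/-- The projection, as a morphism. -/
def prHom (hD : ∀ v, d.kd'.D (d.kd'.D v) = 0) (hL : ∀ x : Ex α, dLam c (dLam c x) = 0) :
    GD.Hom (g.kg.gd hD) (LG c hL) where
  f := d.pr
  comm := d.pr_D
  deg m x hx := by
    have h1 := (g.kg.mem_gr).1 hx
    have h2 := g.deg_pr.mem h1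
    rw [add_zero] at h2
    exact Ex.mem_gr.2 h2

/-- **The Koszul complex is quasi-isomorphic to the exterior algebra.** -/
theorem qis_prHom (hD : ∀ v, d.kd'.D (d.kd'.D v) = 0) (hL : ∀ x : Ex α, dLam c (dLam c x) = 0) :
    GD.Qis (g.prHom hD hL) :=
  g.kg.qis_of_pi hD (g.prHom hD hL) d.pr rfl d.pr_eq_zero_iff
    fun _ x hx => ⟨tt x (tt 1 1), g.tt_gr hx, d.pr_tt_one x⟩

end SG

end

end Vale.Agent.P286.H341
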