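import Vale.Agent.P286.H341.Grd2
import Vale.Agent.P286.H987.InstSo
import Vale.Agent.P286.H295.SpG
import Vale.Agent.P286.H44.C4

/-!
# The three families: the data of the comparison theorem
-/

namespace Vale.Agent.P286.H341

open MvPolynomial Matrix Vale.Agent.P286.Gen Vale.Agent.P286.H847 Vale.Agent.P286.H295
  Vale.Agent.P286.H987 Vale.Agent.P286.H374 Vale.Agent.P286.H166

noncomputable section

/-- The invariant theory of a classical Lie algebra. -/
structure Cls {I : Type} [Fintype I] [DecidableEq I] (S : Dat I) (n : ℕ) : Prop where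
  hn : 2 * n ≤ Fintype.card I
  hex : ∀ F : PM I, S.proj F = F → (∀ A, S.Mem A → ad A F = 0) →
    ∃ P : MvPolynomial (Fin n) ℂ, F = aeval (H42.ys S n) P
  hai : AlgebraicIndependent ℂ (H42.ys S n)

theorem cls_sp (n : ℕ) : Cls (Dat.sp n) n :=
  ⟨by simp [two_mul], H42.sp_exists n, H42.sp_algInd n⟩

theorem cls_so (n : ℕ) : Cls (Dat.so n) n :=
  ⟨by simp [two_mul], H42.so_exists n, H42.so_algInd n⟩

/-- The data of the comparison theorem. -/
structure E0D {N : ℕ} (Γ : Gps N) {I : Type} [Fintype I] [DecidableEq I] (S : Dat I)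
    (n : ℕ) where
  /-- the representation -/
  P : FRep Γ S
  prime : (vanI Γ).IsPrime
  dag : H44.Dag Γ
  cls : Cls S n

/-- The symplectic groups. -/
def E0D.sp (n : ℕ) : E0D (GSp (2 * n)) (Dat.sp n) n where
  P := FRep.sp n
  prime := prime_GSp (even_two_mul n)
  dag _ hX := (Gen.mem_lieAlg _).1 (conjTranspose_mem_GSp (even_two_mul n) ((Gen.mem_lieAlg _).2 hX))
  cls := cls_sp n

/-- The odd special orthogonal groups. -/
def E0D.so (n : ℕ) : E0D (GSo (2 * n + 1)) (Dat.so n) n where
  P := FRep.so n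
  prime := prime_GSo (odd_two_mul_add_one n)
  dag _ hX := (Gen.mem_lieAlg _).1 (conjTranspose_mem_GSo ((Gen.mem_lieAlg _).2 hX))
  cls := cls_so n

/-- The odd spin groups. -/
def E0D.spn (n : ℕ) (hn : 0 < n) : E0D (Spn n) (Dat.so n) n where
  P := FRep.spn n hn
  prime := prime_Spn n
  dag _ hX := isLi_conjTranspose (gam n) (by omega) hX
  cls := cls_so n

namespace E0D

variable {N : ℕ} {Γ : Gps N} {I : Type} [Fintype I] [DecidableEq I] {S : Dat I} {n : ℕ}

variable (E : E0D Γ S n)

/-- The data of the Koszul complex. -/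
def sd {k : ℕ} {e : Fin k → Matrix I I ℂ} (h : Onb (lieS S) e) :
    SD (stc e) n (MvPolynomial (Fin k) ℂ) := lieSD S h E.cls.hn E.cls.hex E.cls.hai

/-- The degrees of the Koszul complex. -/
def sg {k : ℕ} {e : Fin k → Matrix I I ℂ} (h : Onb (lieS S) e) : SG (E.sd h) :=
  lieSG S h E.cls.hn E.cls.hex E.cls.hai

theorem onb : ∃ (k : ℕ) (e : Fin k → Matrix I I ℂ), Onb (lieS S) e := exists_onb_lieS S

end E0D

end

end Vale.Agent.P286.H341
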