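import Vale.Agent.P286.H341.LieSD
import Vale.Agent.P286.H847.GD

/-!
# Degrees in the Koszul complex
-/

namespace Vale.Agent.P286.H341

open TensorProduct MvPolynomial

noncomputable section

set_option linter.unusedSectionVars false

section W

variable {α : Type} [Fintype α] [DecidableEq α]

/-- The weight operator of the exterior algebra. -/
def Ex.wt (w : α → ℂ) : Module.End ℂ (Ex α) := ∑ a, w a • (Ex.th a * Ex.io a)

theorem Ex.wt_apply (w : α → ℂ) (x : Ex α) : Ex.wt w x = ∑ a, w a • Ex.th a (Ex.io a x) := by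
  rw [Ex.wt, LinearMap.sum_apply]
  rfl

theorem Ex.io_io_apply (a b : α) (x : Ex α) : Ex.io a (Ex.io b x) = -Ex.io b (Ex.io a x) :=
  LinearMap.congr_fun (Ex.io_io a b) x

theorem Ex.th_th_apply (a b : α) (x : Ex α) : Ex.th a (Ex.th b x) = -Ex.th b (Ex.th a x) :=
  LinearMap.congr_fun (Ex.th_th a b) x

theorem Ex.ep_th_apply (a : α) (x : Ex α) : Ex.ep (Ex.th a x) = -Ex.th a (Ex.ep x) :=
  LinearMap.congr_fun (Ex.ep_th a) x

theorem Ex.ep_io_apply (a : α) (x : Ex α) : Ex.ep (Ex.io a x) = -Ex.io a (Ex.ep x) :=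
  LinearMap.congr_fun (Ex.ep_io a) x

theorem Ex.wt_io (w : α → ℂ) (a : α) (x : Ex α) :
    Ex.wt w (Ex.io a x) = Ex.io a (Ex.wt w x) + (-w a) • Ex.io a x := by
  rw [Ex.wt_apply, Ex.wt_apply, map_sum]
  have h : ∀ b, w b • Ex.th b (Ex.io b (Ex.io a x)) = Ex.io a (w b • Ex.th b (Ex.io b x)) +
      if a = b then (-w a) • Ex.io a x else 0 := by
    intro b
    rw [map_smul, Ex.io_th_apply, Ex.io_io_apply b a, map_neg]
    by_cases hab : a = b
    · subst hab
      rw [if_pos rfl, if_pos rfl, smul_sub, smul_neg, neg_smul]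
      abel
    · rw [if_neg hab, if_neg hab, zero_sub, add_zero]
  simp only [h, Finset.sum_add_distrib, Finset.sum_ite_eq, Finset.mem_univ, if_true]

theorem Ex.wt_th (w : α → ℂ) (a : α) (x : Ex α) :
    Ex.wt w (Ex.th a x) = Ex.th a (Ex.wt w x) + w a • Ex.th a x := by
  rw [Ex.wt_apply, Ex.wt_apply, map_sum]
  have h : ∀ b, w b • Ex.th b (Ex.io b (Ex.th a x)) = Ex.th a (w b • Ex.th b (Ex.io b x)) +
      if b = a then w a • Ex.th a x else 0 := by
    intro b
    rw [map_smul, Ex.io_th_apply, map_sub, Ex.th_th_apply b a]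
    by_cases hab : b = a
    · subst hab
      rw [if_pos rfl, if_pos rfl, sub_neg_eq_add, smul_add]
      abel
    · rw [if_neg hab, if_neg hab, map_zero, zero_sub, neg_neg, add_zero]
  simp only [h, Finset.sum_add_distrib, Finset.sum_ite_eq', Finset.mem_univ, if_true]

theorem Ex.wt_ep (w : α → ℂ) (x : Ex α) : Ex.wt w (Ex.ep x) = Ex.ep (Ex.wt w x) := by
  rw [Ex.wt_apply, Ex.wt_apply, map_sum]
  refine Finset.sum_congr rfl fun b _ => ?_
  rw [map_smul, Ex.ep_th_apply, Ex.ep_io_apply, map_neg, neg_neg]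

theorem Ex.wt_one (w : α → ℂ) : Ex.wt w (1 : Ex α) = 0 := by
  rw [Ex.wt_apply]
  exact Finset.sum_eq_zero fun a _ => by rw [Ex.io_one, map_zero, smul_zero]

end W

section G

variable {α : Type} [Fintype α] [DecidableEq α] {M : Type} [AddCommGroup M] [Module ℂ M]

/-- The operator `T` has degree `p` with respect to the degree operators `g`, `g'`. -/
def Deg {V W : Type} [AddCommGroup V] [Module ℂ V] [AddCommGroup W] [Module ℂ W]
    (g : Module.End ℂ V) (g' : Module.End ℂ W) (p : ℂ) (T : V →ₗ[ℂ] W) : Prop :=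
  ∀ v, g' (T v) = T (g v) + p • T v

section

variable {V W U : Type} [AddCommGroup V] [Module ℂ V] [AddCommGroup W] [Module ℂ W]
  [AddCommGroup U] [Module ℂ U] {g : Module.End ℂ V} {g' : Module.End ℂ W} {g'' : Module.End ℂ U}

theorem Deg.add {p : ℂ} {T T' : V →ₗ[ℂ] W} (h : Deg g g' p T) (h' : Deg g g' p T') :
    Deg g g' p (T + T') := by
  intro v
  rw [LinearMap.add_apply, LinearMap.add_apply, map_add, h, h', smul_add]
  abel

theorem Deg.smul {p : ℂ} {T : V →ₗ[ℂ] W} (h : Deg g g' p T) (a : ℂ) : Deg g g' p (a • T) := by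
  intro v
  rw [LinearMap.smul_apply, LinearMap.smul_apply, map_smul, h, smul_add, smul_comm a p]

theorem Deg.zero {p : ℂ} : Deg g g' p (0 : V →ₗ[ℂ] W) := by
  intro v
  rw [LinearMap.zero_apply, LinearMap.zero_apply, map_zero, smul_zero, add_zero]

theorem Deg.sub {p : ℂ} {T T' : V →ₗ[ℂ] W} (h : Deg g g' p T) (h' : Deg g g' p T') :
    Deg g g' p (T - T') := by
  intro v
  rw [LinearMap.sub_apply, LinearMap.sub_apply, map_sub, h, h', smul_sub]
  abel

theorem Deg.sum {κ : Type} {p : ℂ} {s : Finset κ} {T : κ → V →ₗ[ℂ] W}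
    (h : ∀ i ∈ s, Deg g g' p (T i)) : Deg g g' p (∑ i ∈ s, T i) := by
  classical
  induction s using Finset.induction_on with
  | empty => rw [Finset.sum_empty]; exact Deg.zero
  | insert a s ha ih =>
    rw [Finset.sum_insert ha]
    exact (h a (Finset.mem_insert_self _ _)).add (ih fun i hi => h i (Finset.mem_insert_of_mem hi))

theorem Deg.comp {p q : ℂ} {T : V →ₗ[ℂ] W} {T' : W →ₗ[ℂ] U} (h : Deg g g' p T)
    (h' : Deg g' g'' q T') : Deg g g'' (p + q) (T' ∘ₗ T) := by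
  intro v
  rw [LinearMap.comp_apply, h', h, map_add, map_smul, LinearMap.comp_apply, add_assoc, ← add_smul]

theorem Deg.congr {p q : ℂ} {T : V →ₗ[ℂ] W} (h : Deg g g' p T) (e : p = q) : Deg g g' q T := e ▸ h

theorem Deg.mem {p : ℂ} {T : V →ₗ[ℂ] W} (h : Deg g g' p T) {m : ℂ} {v : V} (hv : g v = m • v) :
    g' (T v) = (m + p) • T v := by
  rw [h, hv, map_smul, add_smul]

end

/-- The degree operator of a tensor product. -/
def gt (w : α → ℂ) (gM : Module.End ℂ M) : Module.End ℂ (KV α M) := tm (Ex.wt w) 1 + tm 1 gM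

theorem gt_tt (w : α → ℂ) (gM : Module.End ℂ M) (x : Ex α) (m : M) :
    gt w gM (tt x m) = tt (Ex.wt w x) m + tt x (gM m) := by
  rw [gt, LinearMap.add_apply, tm_tt, tm_tt]
  rfl

theorem Deg.tm {w : α → ℂ} {gM : Module.End ℂ M} {p q : ℂ} {S : Module.End ℂ (Ex α)}
    {T : Module.End ℂ M} (h : Deg (Ex.wt w) (Ex.wt w) p S) (h' : Deg gM gM q T) :
    Deg (gt w gM) (gt w gM) (p + q) (H341.tm S T) := by
  intro v
  refine KV.hom_ext (f := gt w gM ∘ₗ H341.tm S T)
    (g := H341.tm S T ∘ₗ gt w gM + (p + q) • H341.tm S T) (fun x m => ?_) v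
  rw [LinearMap.comp_apply, LinearMap.add_apply, LinearMap.comp_apply, LinearMap.smul_apply, tm_tt,
    gt_tt, gt_tt, map_add, tm_tt, tm_tt, h, h', KV.tt_add, KV.tt_add', KV.tt_smul, KV.tt_smul',
    add_smul]
  abel

theorem Deg.map1 {N : Type} [AddCommGroup N] [Module ℂ N] {w : α → ℂ} {gM : Module.End ℂ M}
    {gN : Module.End ℂ N} {q : ℂ} {T : M →ₗ[ℂ] N} (h : Deg gM gN q T) :
    Deg (gt w gM) (gt w gN) q (KV.map1 T) := by
  intro v
  refine KV.hom_ext (f := gt w gN ∘ₗ KV.map1 T)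
    (g := KV.map1 T ∘ₗ gt w gM + q • KV.map1 T) (fun x m => ?_) v
  rw [LinearMap.comp_apply, LinearMap.add_apply, LinearMap.comp_apply, LinearMap.smul_apply,
    KV.map1_tt, gt_tt, gt_tt, map_add, KV.map1_tt, KV.map1_tt, h, KV.tt_add', KV.tt_smul']
  abel

theorem Deg.one {V : Type} [AddCommGroup V] [Module ℂ V] {g : Module.End ℂ V} :
    Deg g g 0 (1 : Module.End ℂ V) := by
  intro v
  rw [Module.End.one_apply, zero_smul, add_zero]
  rfl

theorem deg_io (w : α → ℂ) (a : α) : Deg (Ex.wt w) (Ex.wt w) (-w a) (Ex.io a) := Ex.wt_io w a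

theorem deg_th (w : α → ℂ) (a : α) : Deg (Ex.wt w) (Ex.wt w) (w a) (Ex.th a) := Ex.wt_th w a

theorem deg_ep (w : α → ℂ) : Deg (Ex.wt w) (Ex.wt w) 0 (Ex.ep : Module.End ℂ (Ex α)) := by
  intro x
  rw [Ex.wt_ep, zero_smul, add_zero]

theorem Green.deg {V : Type} [AddCommGroup V] [Module ℂ V] {C g : Module.End ℂ V} (G : Green C)
    (h : Deg g g 0 C) : Deg g g 0 G.G ∧ Deg g g 0 G.P := by
  have h' : ∀ v, g (C v) = C (g v) := by
    intro v
    rw [h, zero_smul, add_zero]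
  refine ⟨fun v => ?_, fun v => ?_⟩
  · rw [zero_smul, add_zero]
    exact G.map_G G (T := g) h' v
  · rw [zero_smul, add_zero]
    exact G.map_P G (T := g) h' v

end G

/-- The degrees of the operators on the coefficients. -/
structure KG {α : Type} [Fintype α] [DecidableEq α] {c : α → α → α → ℂ} {M : Type}
    [AddCommGroup M] [Module ℂ M] (K : KD c M) where
  /-- the degree operator -/
  g : Module.End ℂ M
  rho : ∀ a, Deg g g 0 (K.rho a)
  rh : ∀ a, Deg g g 0 (K.rh a)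
  F : ∀ a, Deg g g 2 (K.F a)
  dl : Deg g g 1 K.dl
  sg : Deg g g (-1) K.sg
  pj : Deg g g 0 K.pj

namespace KG

variable {α : Type} [Fintype α] [DecidableEq α] {c : α → α → α → ℂ} {M : Type}
    [AddCommGroup M] [Module ℂ M] {K : KD c M} (G : KG K)

/-- The degree operator of the Koszul complex. -/
def gK : Module.End ℂ (KV α M) := gt (fun _ => 1) G.g

theorem deg_D : Deg G.gK G.gK 1 K.D := by
  rw [KD.D, KD.dce_eq, KD.ddl, KD.dF]
  refine Deg.add (Deg.add (Deg.sub (Deg.sum fun a _ => ?_) ?_) ?_) (Deg.sum fun a _ => ?_)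
  · exact (Deg.tm (deg_th _ a) (G.rho a)).congr (by norm_num)
  · refine (Deg.tm (p := 1) (q := 0) ?_ Deg.one).congr (by norm_num)
    refine Deg.smul (Deg.sum fun a _ => Deg.sum fun b _ => Deg.sum fun l _ => Deg.smul ?_ _) _
    have h1 : Deg (Ex.wt (fun _ => (1 : ℂ))) (Ex.wt (fun _ => (1 : ℂ))) 1
        (Ex.th a ∘ₗ Ex.th b ∘ₗ Ex.io l : Module.End ℂ (Ex α)) :=
      (((deg_io _ l).comp (deg_th _ b)).comp (deg_th _ a)).congr (by norm_num)
    exact h1
  · exact (Deg.tm (deg_ep _) G.dl).congr (by norm_num)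
  · exact (Deg.tm (deg_io _ a) (G.F a)).congr (by norm_num)

theorem deg_s : Deg G.gK G.gK (-1) K.s := by
  have hC : Deg G.g G.g 0 (∑ a, K.rho a * K.rh a) :=
    Deg.sum fun a _ => ((G.rh a).comp (G.rho a)).congr (by norm_num)
  rw [KD.s, KD.hh]
  refine Deg.add (Deg.sum fun a _ => ?_) ?_
  · refine (Deg.tm (q := 0) (deg_io _ a) ?_).congr (by norm_num)
    exact ((K.gr.deg hC).1.comp (G.rh a)).congr (by norm_num)
  · exact (Deg.tm (deg_ep _) G.sg).congr (by norm_num)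

theorem deg_pi : Deg G.gK G.gK 0 K.pi := (Deg.tm Deg.one G.pj).congr (by norm_num)

/-- The homogeneous elements. -/
def gr (m : ℤ) : Submodule ℂ (KV α M) := LinearMap.ker (G.gK - ((m : ℤ) : ℂ) • LinearMap.id)

theorem mem_gr {m : ℤ} {v : KV α M} : v ∈ G.gr m ↔ G.gK v = (m : ℂ) • v := by
  rw [gr, LinearMap.mem_ker, LinearMap.sub_apply, sub_eq_zero]
  rfl

theorem D_gr (m : ℤ) (v : KV α M) (hv : v ∈ G.gr m) : K.D v ∈ G.gr (m + 1) := by
  rw [mem_gr] at hv ⊢
  rw [G.deg_D.mem hv]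
  push_cast
  rfl

theorem s_gr (m : ℤ) (v : KV α M) (hv : v ∈ G.gr (m + 1)) : K.s v ∈ G.gr m := by
  rw [mem_gr] at hv ⊢
  rw [G.deg_s.mem hv]
  push_cast
  rw [add_neg_cancel_right]

theorem pi_gr (m : ℤ) (v : KV α M) (hv : v ∈ G.gr m) : K.pi v ∈ G.gr m := by
  rw [mem_gr] at hv ⊢
  rw [G.deg_pi.mem hv, add_zero]

open H847

/-- The Koszul complex. -/
def gd (hD : ∀ v, K.D (K.D v) = 0) : GD where
  V := KV α M
  d := K.D
  dd := hD
  gr := G.gr
  dgr := G.D_gr

/-- A map which kills the same elements as the augmentation. -/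
theorem qis_of_pi (hD : ∀ v, K.D (K.D v) = 0) {N : GD} (u : GD.Hom (G.gd hD) N)
    (f : KV α M →ₗ[ℂ] N.V) (hf : u.f = f) (hk : ∀ v : KV α M, f v = 0 ↔ K.pi v = 0)
    (hs : ∀ m, ∀ x ∈ N.gr m, ∃ v ∈ G.gr m, f v = x) : GD.Qis u := by
  have hc : ∀ v : KV α M, f (K.D v) = N.d (f v) := by
    intro v
    rw [← hf]
    exact u.comm v
  intro m
  rw [hf]
  have key1 : ∀ x : KV α M, x ∈ G.gr m → K.D x = 0 → (∃ y ∈ N.gr (m - 1), N.d y = f x) →
      ∃ x' ∈ G.gr (m - 1), K.D x' = x := by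
    intro x hx hdx ⟨y, hy, hyx⟩
    obtain ⟨y', hy', rfl⟩ := hs (m - 1) y hy
    have h1 : f (x - K.D y') = 0 := by
      rw [map_sub, hc, hyx]
      exact sub_self _
    have h2 := (hk _).1 h1
    have hy'' : K.D y' ∈ G.gr m := by
      have := G.D_gr _ _ hy'
      rwa [sub_add_cancel] at this
    have hm : m - 1 + 1 = m := sub_add_cancel m 1
    obtain ⟨w, hw, _, hw2⟩ := K.exact hD G.gr G.D_gr G.s_gr (m - 1) (x - K.D y')
      (by rw [hm]; exact Submodule.sub_mem _ hx hy'') h2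
      (by rw [map_sub, hD, sub_zero]; exact hdx)
    refine ⟨w + y', Submodule.add_mem _ hw hy', ?_⟩
    rw [map_add, hw2]
    exact sub_add_cancel _ _
  refine ⟨key1, ?_⟩
  · intro y hy hdy
    obtain ⟨v, hv, rfl⟩ := hs m y hy
    have h1 : f (K.D v) = 0 := by
      rw [hc, hdy]
    have h2 := (hk _).1 h1
    obtain ⟨w, hw, hw1, hw2⟩ := K.exact hD G.gr G.D_gr G.s_gr m (K.D v) (G.D_gr _ _ hv) h2 (hD v)
    refine ⟨v - w, Submodule.sub_mem _ hv hw, ?_, 0, Submodule.zero_mem _, ?_⟩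
    · change K.D (v - w) = 0
      rw [map_sub, hw2, sub_self]
    · have : f (v - w) = f v := by rw [map_sub, (hk w).2 hw1, sub_zero]
      rw [map_zero]
      change 0 = f v - f (v - w)
      rw [this, sub_self]

end KG

end

end Vale.Agent.P286.H341
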