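import Vale.Agent.P286.H341.Grd
import Vale.Agent.P286.H847.WkDef

/-!
# Degrees for the classical Lie algebras
-/

namespace Vale.Agent.P286.H341

open TensorProduct MvPolynomial Matrix

noncomputable section

set_option linter.unusedSectionVars false

section Py

variable {n : ℕ}

/-- The weights of the `ξ`. -/
def wx (n : ℕ) (i : Fin n) : ℂ := 4 * (i : ℂ) + 3

/-- The weights of the `y`. -/
def wy (n : ℕ) (i : Fin n) : ℂ := 4 * (i : ℂ) + 4

/-- The degree derivation of the polynomial ring. -/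
def dY : Derivation ℂ (Py n) (Py n) := mkDerivation ℂ fun i => wy n i • X i

theorem dY_X (i : Fin n) : dY (X i : Py n) = wy n i • X i := mkDerivation_X _ _ _

theorem deg_mlo (i : Fin n) : Deg (dop (dY : Derivation ℂ (Py n) (Py n)))
    (dop (dY : Derivation ℂ (Py n) (Py n))) (wy n i) (mlo i) := by
  intro p
  have h : dY (X i * p : Py n) = X i * dY p + wy n i • (X i * p) := by
    rw [Derivation.leibniz, dY_X, smul_eq_mul, smul_eq_mul, mul_smul_comm, mul_comm p]
  exact h

theorem deg_pdo (i : Fin n) : Deg (dop (dY : Derivation ℂ (Py n) (Py n)))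
    (dop (dY : Derivation ℂ (Py n) (Py n))) (-wy n i) (pdo i) := by
  intro p
  have h : ⁅(dY : Derivation ℂ (Py n) (Py n)), (pderiv i : Derivation ℂ (Py n) (Py n))⁆ =
      (-wy n i) • (pderiv i : Derivation ℂ (Py n) (Py n)) := by
    apply MvPolynomial.derivation_ext
    intro j
    rw [Derivation.commutator_apply, Derivation.smul_apply, dY_X, Derivation.map_smul, pderiv_X]
    by_cases hij : j = i
    · subst hij
      rw [Pi.single_eq_same, Derivation.map_one_eq_zero, zero_sub, neg_smul]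
    · rw [Pi.single_eq_of_ne hij, map_zero, smul_zero, smul_zero, sub_zero]
  have h2 := congrArg (fun D : Derivation ℂ (Py n) (Py n) => D p) h
  rw [Derivation.commutator_apply, sub_eq_iff_eq_add] at h2
  have h3 : dY (pderiv i p : Py n) = pderiv i (dY p) + (-wy n i) • pderiv i p := by
    rw [h2, add_comm]
    rfl
  exact h3

/-- The degree operator of the Koszul complex of the polynomial ring. -/
def gY : Module.End ℂ (KV (Fin n) (Py n)) := gt (wx n) (dop dY)

theorem deg_nb {α : Type} [Fintype α] [DecidableEq α] (w : α → ℂ) :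
    Deg (Ex.wt w) (Ex.wt w) 0 (Ex.nb : Module.End ℂ (Ex α)) :=
  Deg.sum fun a _ => ((deg_io w a).comp (deg_th w a)).congr (neg_add_cancel _)

theorem deg_kE : Deg gY gY 0 (kE : Module.End ℂ (KV (Fin n) (Py n))) := by
  refine Deg.add ((Deg.tm (deg_nb _) Deg.one).congr (add_zero 0)) ?_
  refine (Deg.tm (q := 0) Deg.one ?_).congr (add_zero 0)
  exact Deg.sum fun i _ => ((deg_pdo i).comp (deg_mlo i)).congr (neg_add_cancel _)

theorem deg_kh : Deg gY gY (-1) (kh : Module.End ℂ (KV (Fin n) (Py n))) := by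
  refine Deg.sum fun i _ => (Deg.tm (deg_th _ i) (deg_pdo i)).congr ?_
  rw [wx, wy]
  ring

theorem deg_ks : Deg gY gY (-1) (ks : Module.End ℂ (KV (Fin n) (Py n))) :=
  (deg_kh.comp (gE.deg deg_kE).1).congr (add_zero _)

end Py

/-- The degrees of the data. -/
structure SG {α : Type} [Fintype α] [DecidableEq α] {c : α → α → α → ℂ} {n : ℕ} {S : Type}
    [CommRing S] [Algebra ℂ S] (d : SD c n S) where
  /-- the degree derivation -/
  dS : Derivation ℂ S S
  r_d : ∀ a x, dS (d.r a x) = d.r a (dS x)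
  r'_d : ∀ a x, dS (d.r' a x) = d.r' a (dS x)
  F_d : ∀ a, dS (d.F a) = (2 : ℂ) • d.F a
  y_d : ∀ i, dS (d.y (X i)) = wy n i • d.y (X i)
  ag_d : ∀ x, d.ag (dS x) = 0

namespace SG

variable {α : Type} [Fintype α] [DecidableEq α] {c : α → α → α → ℂ} {n : ℕ} {S : Type}
    [CommRing S] [Algebra ℂ S] {d : SD c n S} (g : SG d)

theorem y_dY (p : Py n) : g.dS (d.y p) = d.y (dY p) := by
  induction p using MvPolynomial.induction_on with
  | C a =>
    rw [← MvPolynomial.algebraMap_eq, AlgHom.commutes, Derivation.map_algebraMap,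
      Derivation.map_algebraMap, map_zero]
  | add p q hp hq => rw [map_add, map_add, hp, hq, map_add, map_add]
  | mul_X p i hp =>
    rw [map_mul, Derivation.leibniz, hp, g.y_d, Derivation.leibniz, dY_X, map_add, smul_eq_mul,
      smul_eq_mul, smul_eq_mul, smul_eq_mul, map_mul, map_mul, map_smul]

theorem deg_y : Deg (dop dY) (dop g.dS) 0 d.y.toLinearMap := by
  intro p
  rw [zero_smul, add_zero]
  exact g.y_dY p

theorem deg_C : Deg (dop g.dS) (dop g.dS) 0 d.C := by
  refine Deg.sum fun a _ => ?_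
  intro x
  rw [zero_smul, add_zero]
  change g.dS (d.r a (d.r' a x)) = d.r a (d.r' a (g.dS x))
  rw [g.r_d, g.r'_d]

theorem deg_rY : Deg (dop g.dS) (dop dY) 0 d.rY := by
  intro x
  rw [zero_smul, add_zero]
  apply d.inj
  change d.y (dY (d.rY x)) = d.y (d.rY (g.dS x))
  rw [← g.y_dY, d.y_rY, d.y_rY]
  have h := (d.gS.deg g.deg_C).2 x
  rw [zero_smul, add_zero] at h
  exact h

/-- The degrees on the coefficients. -/
def kg : KG d.kd' where
  g := gt (wx n) (dop g.dS)
  rho a := (Deg.tm (q := 0) Deg.one (fun x => by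
    rw [zero_smul, add_zero]; exact g.r_d a x)).congr (add_zero 0)
  rh a := (Deg.tm (q := 0) Deg.one (fun x => by
    rw [zero_smul, add_zero]; exact g.r'_d a x)).congr (add_zero 0)
  F a := (Deg.tm (q := 2) Deg.one (fun x => by
    change g.dS (d.F a * x) = d.F a * g.dS x + (2 : ℂ) • (d.F a * x)
    rw [Derivation.leibniz, g.F_d, smul_eq_mul, smul_eq_mul, mul_smul_comm, mul_comm x])).congr
      (zero_add 2)
  dl := by
    refine Deg.sum fun i _ => (Deg.tm (q := wy n i) (deg_io _ i) (fun x => ?_)).congr ?_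
    · change g.dS (d.y (X i) * x) = d.y (X i) * g.dS x + wy n i • (d.y (X i) * x)
      rw [Derivation.leibniz, g.y_d, smul_eq_mul, smul_eq_mul, mul_smul_comm, mul_comm x]
    · rw [wx, wy]; ring
  sg := by
    have h := ((Deg.map1 (w := wx n) g.deg_rY).comp deg_ks).comp (Deg.map1 (w := wx n) g.deg_y)
    exact h.congr (by ring)
  pj := by
    intro v
    rw [zero_smul, add_zero]
    change gt (wx n) (dop g.dS) (KV.aug d.ag.toLinearMap v • tt 1 1) =
      KV.aug d.ag.toLinearMap (gt (wx n) (dop g.dS) v) • tt 1 1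
    have h1 : KV.aug d.ag.toLinearMap (gt (wx n) (dop g.dS) v) = 0 := by
      refine KV.hom_ext (f := KV.aug d.ag.toLinearMap ∘ₗ gt (wx n) (dop g.dS)) (g := 0)
        (fun x m => ?_) v
      rw [LinearMap.comp_apply, gt_tt, map_add, KV.aug_tt, KV.aug_tt]
      have h2 : Ex.aug (Ex.wt (wx n) x) = 0 := by
        rw [Ex.wt_apply, map_sum]
        refine Finset.sum_eq_zero fun a _ => ?_
        rw [map_smul, Ex.th_apply, Ex.gn, Ex.aug_ι_mul, smul_zero]
      have h3 : d.ag.toLinearMap (dop g.dS m) = 0 := g.ag_d m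
      rw [h2, h3, zero_mul, mul_zero, add_zero]
      rfl
    rw [h1, zero_smul, map_smul, gt_tt, Ex.wt_one, KV.tt_zero]
    have h4 : dop g.dS (1 : S) = 0 := Derivation.map_one_eq_zero _
    rw [h4, KV.tt_zero', add_zero, smul_zero]

end SG

section Lie

variable {I : Type} [Fintype I] [DecidableEq I] {k : ℕ} (S : H374.Dat I)
  {e : Fin k → Matrix I I ℂ}

open H374 H166

theorem rpd_gen (h : Onb (lieS S) e) (a : Fin k) (i j : I) :
    ∑ b, C (e b i j) * rpd e (e a) (X b) =
      ∑ d, C ((e d * e a - e a * e d) i j) * X d := by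
  have h1 : ∀ d, e d * e a - e a * e d = ∑ b, trace ((e d * e a - e a * e d) * (e b)ᴴ) • e b :=
    fun d => h.exp _ (lieS_lie _ (h.mem d) _ (h.mem a))
  have h2 : ∀ b, C (e b i j) * rpd e (e a) (X b) =
      ∑ d, C (trace ((e d * e a - e a * e d) * (e b)ᴴ) * e b i j) * X d := by
    intro b
    rw [rpd, lvf_X, Finset.mul_sum]
    refine Finset.sum_congr rfl fun d _ => ?_
    rw [adm_apply, Algebra.smul_def, MvPolynomial.algebraMap_eq, map_mul]
    ring
  simp only [h2]
  rw [Finset.sum_comm]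
  refine Finset.sum_congr rfl fun d _ => ?_
  conv_rhs => rw [h1 d]
  rw [Matrix.sum_apply, map_sum, Finset.sum_mul]
  refine Finset.sum_congr rfl fun b _ => ?_
  rw [Matrix.smul_apply, smul_eq_mul]

theorem yS_X (h : Onb (lieS S) e) {n : ℕ} (hn : 2 * n ≤ Fintype.card I) (t : Fin n) :
    yS S e n (X t) = res e (H847.Wk.ep I (2 * ((t : ℕ) + 1))) := by
  have h1 : ∀ f, res e (S.proj f) = res e f := by
    intro f
    rw [← ext_res S h, res_ext S h]
  have := t.2
  rw [yS_apply, aeval_X, H42.ys, h1, H847.Wk.ep, if_pos (by omega)]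
  rfl

/-- The degree derivation. -/
def dSk : Derivation ℂ (MvPolynomial (Fin k) ℂ) (MvPolynomial (Fin k) ℂ) :=
  lvf ((2 : ℂ) • (1 : Matrix (Fin k) (Fin k) ℂ))

theorem dSk_eq (f : MvPolynomial (Fin k) ℂ) : dSk f = (2 : ℂ) • ∑ i, X i * pderiv i f := by
  rw [dSk, lvf_apply, Finset.smul_sum]
  refine Finset.sum_congr rfl fun i _ => ?_
  rw [Finset.sum_eq_single i]
  · rw [Matrix.smul_apply, Matrix.one_apply_eq, smul_eq_mul, mul_one]
  · intro j _ hj
    rw [Matrix.smul_apply, Matrix.one_apply_ne (Ne.symm hj), smul_zero, zero_smul]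
  · intro hh; exact absurd (Finset.mem_univ _) hh

theorem dSk_lvf (A : Matrix (Fin k) (Fin k) ℂ) (f : MvPolynomial (Fin k) ℂ) :
    dSk (lvf A f) = lvf A (dSk f) := by
  have h := lvf_lie ((2 : ℂ) • (1 : Matrix (Fin k) (Fin k) ℂ)) A
  rw [smul_mul_assoc, one_mul, mul_smul_comm, mul_one, sub_self, lvf_zero] at h
  have h2 := congrArg (fun D : Derivation ℂ (MvPolynomial (Fin k) ℂ) (MvPolynomial (Fin k) ℂ) => D f) h
  rw [Derivation.commutator_apply] at h2
  exact (sub_eq_zero.1 h2.symm)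

theorem dSk_hom {f : MvPolynomial (Fin k) ℂ} {m : ℕ} (hf : f.IsHomogeneous m) :
    dSk f = (2 * (m : ℂ)) • f := by
  rw [dSk_eq, hf.sum_X_mul_pderiv, ← Nat.cast_smul_eq_nsmul ℂ, smul_smul]

theorem yS_hom (h : Onb (lieS S) e) {n : ℕ} (hn : 2 * n ≤ Fintype.card I) (t : Fin n) :
    (yS S e n (X t)).IsHomogeneous (2 * ((t : ℕ) + 1)) := by
  have := t.2
  rw [yS_X S h hn, H847.Wk.ep, if_pos (by omega)]
  have h1 : (((Matrix.mvPolynomialX I I ℂ).charpoly.coeff
      (Fintype.card I - 2 * ((t : ℕ) + 1))).IsHomogeneous (2 * ((t : ℕ) + 1))) :=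
    Matrix.charpoly.univ_coeff_isHomogeneous ℂ I _ _ (by omega)
  have h2 := h1.aeval (fun p => ∑ a, C (e a p.1 p.2) * X a : I × I → MvPolynomial (Fin k) ℂ)
    (n := 1) (fun p => IsHomogeneous.sum _ _ _ fun a _ => by
      have := (isHomogeneous_C (Fin k) (e a p.1 p.2)).mul (isHomogeneous_X ℂ a)
      rwa [zero_add] at this)
  rw [one_mul] at h2
  exact h2

/-- **The degrees for a classical Lie algebra.** -/
def lieSG (h : Onb (lieS S) e) {n : ℕ} (hn : 2 * n ≤ Fintype.card I)
    (hex : ∀ F : PM I, S.proj F = F → (∀ A, S.Mem A → ad A F = 0) →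
      ∃ P : MvPolynomial (Fin n) ℂ, F = aeval (H42.ys S n) P)
    (hai : AlgebraicIndependent ℂ (H42.ys S n)) : SG (lieSD S h hn hex hai) where
  dS := dSk
  r_d a x := dSk_lvf _ x
  r'_d a x := dSk_lvf _ x
  F_d a := by
    change dSk (X a) = (2 : ℂ) • X a
    rw [dSk_hom (isHomogeneous_X ℂ a), Nat.cast_one, mul_one]
  y_d i := by
    change dSk (yS S e n (X i)) = wy n i • yS S e n (X i)
    rw [dSk_hom (yS_hom S h hn i), wy]
    congr 1
    push_cast
    ring
  ag_d x := by
    change aeval (fun _ => (0 : ℂ)) (dSk x) = 0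
    rw [dSk_eq, map_smul, map_sum]
    rw [Finset.sum_eq_zero, smul_zero]
    intro i _
    rw [map_mul, aeval_X, zero_mul]

end Lie

end

end Vale.Agent.P286.H341
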