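import Vale.Agent.P286.H341.Grd2
import Vale.Agent.P286.H44.Rst

/-!
# The degrees of the generators of the Koszul complex
-/

namespace Vale.Agent.P286.H341

open TensorProduct MvPolynomial Matrix

noncomputable section

set_option linter.unusedSectionVars false

namespace SG

variable {α : Type} [Fintype α] [DecidableEq α] {c : α → α → α → ℂ} {n : ℕ} {S : Type}
    [CommRing S] [Algebra ℂ S] {d : SD c n S} (g : SG d)

theorem kg_g : g.kg.g = gt (wx n) (dop g.dS) := rfl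

theorem kg_one : g.kg.g (tt 1 1) = 0 := by
  rw [kg_g, gt_tt, Ex.wt_one, KV.tt_zero]
  have h4 : dop g.dS (1 : S) = 0 := Derivation.map_one_eq_zero _
  rw [h4, KV.tt_zero', add_zero]

theorem kg_th (t : Fin n) : Deg g.kg.g g.kg.g (4 * (t : ℂ) + 3) (tm (Ex.th t) 1) :=
  (Deg.tm (deg_th (wx n) t) Deg.one).congr (by rw [wx, add_zero])

theorem kg_mop {q : ℂ} {s : S} (hs : g.dS s = q • s) :
    Deg g.kg.g g.kg.g q (tm 1 (mop s)) :=
  (Deg.tm (p := 0) Deg.one (q := q) (fun x => by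
    change g.dS (s * x) = s * g.dS x + q • (s * x)
    rw [Derivation.leibniz, hs, smul_eq_mul, smul_eq_mul, mul_smul_comm, mul_comm x])).congr
      (zero_add q)

theorem gK_one : g.kg.gK (tt 1 (tt 1 1)) = 0 := by
  rw [KG.gK, gt_tt, Ex.wt_one, KV.tt_zero, g.kg_one, KV.tt_zero', add_zero]

theorem gK_th {a : α} : Deg g.kg.gK g.kg.gK 1 (tm (Ex.th a) 1) :=
  (Deg.tm (deg_th _ a) Deg.one).congr (add_zero 1)

theorem gK_xi (t : Fin n) :
    Deg g.kg.gK g.kg.gK (4 * (t : ℂ) + 3) (tm Ex.ep (tm (Ex.th t) 1)) :=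
  (Deg.tm (deg_ep _) (g.kg_th t)).congr (zero_add _)

theorem gK_mop {q : ℂ} {s : S} (hs : g.dS s = q • s) :
    Deg g.kg.gK g.kg.gK q (tm 1 (tm 1 (mop s))) :=
  (Deg.tm Deg.one (g.kg_mop hs)).congr (zero_add _)

end SG

section Lie

variable {I : Type} [Fintype I] [DecidableEq I] {k : ℕ} (S : H374.Dat I)
  {e : Fin k → Matrix I I ℂ}

open H374 H166

/-- The degree derivation on homogeneous polynomials. -/
theorem lieSG_dS (h : Onb (lieS S) e) {n : ℕ} (hn : 2 * n ≤ Fintype.card I)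
    (hex : ∀ F : PM I, S.proj F = F → (∀ A, S.Mem A → ad A F = 0) →
      ∃ P : MvPolynomial (Fin n) ℂ, F = aeval (H42.ys S n) P)
    (hai : AlgebraicIndependent ℂ (H42.ys S n)) {f : MvPolynomial (Fin k) ℂ} {m : ℕ}
    (hf : f.IsHomogeneous m) : (lieSG S h hn hex hai).dS f = (2 * (m : ℂ)) • f := dSk_hom hf

theorem res_hom {f : PM I} {m : ℕ} (hf : f.IsHomogeneous m) : (res e f).IsHomogeneous m := by
  have h2 := hf.aeval (fun p => ∑ a, C (e a p.1 p.2) * X a : I × I → MvPolynomial (Fin k) ℂ)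
    (n := 1) (fun p => IsHomogeneous.sum _ _ _ fun a _ => by
      have := (isHomogeneous_C (Fin k) (e a p.1 p.2)).mul (isHomogeneous_X ℂ a)
      rwa [zero_add] at this)
  rw [one_mul] at h2
  exact h2

/-- The data of a classical Lie algebra. -/
theorem ld_lieSD (h : Onb (lieS S) e) {n : ℕ} (hn : 2 * n ≤ Fintype.card I)
    (hex : ∀ F : PM I, S.proj F = F → (∀ A, S.Mem A → ad A F = 0) →
      ∃ P : MvPolynomial (Fin n) ℂ, F = aeval (H42.ys S n) P)
    (hai : AlgebraicIndependent ℂ (H42.ys S n)) : H44.LD e (lieS S) (lieSD S h hn hex hai) where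
  onb := h
  lie := lieS_lie
  r _ := rfl
  F _ := rfl
  y := yS_X S h hn

end Lie

end

end Vale.Agent.P286.H341
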