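import Mathlib

/-!
# Operators whose generalised kernel is the kernel, and their Green operators
-/

namespace Vale.Agent.P286.H341

open Polynomial

noncomputable section

variable {k : Type*} [Field k] {V W : Type*} [AddCommGroup V] [Module k V] [AddCommGroup W]
  [Module k W]

/-- The vectors `v` with `C q(C) v = 0` for a polynomial `q` with `q(0) ≠ 0`. -/
def PV (C : Module.End k V) : Submodule k V where
  carrier := {v | ∃ q : k[X], q.eval 0 ≠ 0 ∧ C (aeval C q v) = 0}
  zero_mem' := ⟨1, by simp, by simp⟩
  add_mem' := by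
    rintro v w ⟨q, hq, hv⟩ ⟨r, hr, hw⟩
    refine ⟨q * r, by rw [eval_mul]; exact mul_ne_zero hq hr, ?_⟩
    have e1 : aeval C (q * r) v = aeval C r (aeval C q v) := by
      rw [mul_comm, map_mul, Module.End.mul_apply]
    have e2 : aeval C (q * r) w = aeval C q (aeval C r w) := by
      rw [map_mul, Module.End.mul_apply]
    have c : ∀ (p : k[X]) (u : V), C (aeval C p u) = aeval C p (C u) := by
      intro p u
      have h : Commute C (aeval C p) := by
        have := (Commute.all (X : k[X]) p).map (aeval C)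
        rwa [aeval_X] at this
      have h2 := congrArg (fun T : Module.End k V => T u) h.eq
      simpa only [Module.End.mul_apply] using h2
    rw [map_add, map_add, e1, e2, c r, hv, map_zero, c q, hw, map_zero, add_zero]
  smul_mem' := by
    rintro a v ⟨q, hq, hv⟩
    exact ⟨q, hq, by rw [map_smul, map_smul, hv, smul_zero]⟩

theorem mem_PV {C : Module.End k V} {v : V} :
    v ∈ PV C ↔ ∃ q : k[X], q.eval 0 ≠ 0 ∧ C (aeval C q v) = 0 := Iff.rfl

/-- Every vector is killed by `C q(C)` for some `q` with `q(0) ≠ 0`. -/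
def IsP (C : Module.End k V) : Prop := ∀ v, v ∈ PV C

theorem mem_PV_of_ker {C : Module.End k V} {v : V} (h : C v = 0) : v ∈ PV C :=
  ⟨1, by simp, by simpa using h⟩

theorem mem_PV_of_eig {C : Module.End k V} {v : V} {a : k} (h : C v = a • v) : v ∈ PV C := by
  by_cases ha : a = 0
  · exact mem_PV_of_ker (by rw [h, ha, zero_smul])
  · refine ⟨X - Polynomial.C a, by simpa using ha, ?_⟩
    rw [map_sub, aeval_X, aeval_C, LinearMap.sub_apply, Module.algebraMap_end_apply, h, sub_self,
      map_zero]

theorem aeval_intertwine {C : Module.End k V} {C' : Module.End k W} {T : V →ₗ[k] W}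
    (h : ∀ v, T (C v) = C' (T v)) (q : k[X]) (v : V) :
    T (aeval C q v) = aeval C' q (T v) := by
  induction q using Polynomial.induction_on' generalizing v with
  | add p q hp hq => rw [map_add, map_add, LinearMap.add_apply, LinearMap.add_apply, map_add, hp, hq]
  | monomial n a =>
    induction n generalizing v with
    | zero =>
      rw [Polynomial.monomial_zero_left, aeval_C, aeval_C, Module.algebraMap_end_apply,
        Module.algebraMap_end_apply, map_smul]
    | succ n ih =>
      rw [← Polynomial.monomial_mul_X, map_mul, map_mul, aeval_X, aeval_X, Module.End.mul_apply,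
        Module.End.mul_apply, ih, h]

theorem map_mem_PV {C : Module.End k V} {C' : Module.End k W} {T : V →ₗ[k] W}
    (h : ∀ v, T (C v) = C' (T v)) {v : V} (hv : v ∈ PV C) : T v ∈ PV C' := by
  obtain ⟨q, hq, hv⟩ := hv
  exact ⟨q, hq, by rw [← aeval_intertwine h, ← h, hv, map_zero]⟩

/-- Quotients inherit the property. -/
theorem IsP.of_surjective {C : Module.End k V} {C' : Module.End k W} {T : V →ₗ[k] W}
    (h : ∀ v, T (C v) = C' (T v)) (hT : Function.Surjective T) (hC : IsP C) : IsP C' := by
  intro w
  obtain ⟨v, rfl⟩ := hT w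
  exact map_mem_PV h (hC v)

theorem aeval_apply_eq (C : Module.End k V) (q : k[X]) (v : V) :
    aeval C q v = q.eval 0 • v + C (aeval C q.divX v) := by
  conv_lhs => rw [← Polynomial.divX_mul_X_add q]
  rw [map_add, mul_comm, map_mul, aeval_X, aeval_C, LinearMap.add_apply, Module.End.mul_apply,
    Module.algebraMap_end_apply, Polynomial.coeff_zero_eq_eval_zero, add_comm]

theorem aeval_comm (C : Module.End k V) (q : k[X]) (v : V) :
    C (aeval C q v) = aeval C q (C v) := by
  have h : Commute C (aeval C q) := by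
    have := (Commute.all (X : k[X]) q).map (aeval C)
    rwa [aeval_X] at this
  have h2 := congrArg (fun T : Module.End k V => T v) h.eq
  simpa only [Module.End.mul_apply] using h2

theorem IsP.isCompl {C : Module.End k V} (hC : IsP C) :
    IsCompl (LinearMap.ker C) (LinearMap.range C) := by
  constructor
  · rw [Submodule.disjoint_def]
    rintro v hv ⟨w, rfl⟩
    rw [LinearMap.mem_ker] at hv
    obtain ⟨q, hq, hw⟩ := hC w
    rw [aeval_apply_eq, map_add, map_smul, aeval_comm, aeval_comm, hv, map_zero, add_zero] at hw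
    exact (smul_eq_zero.1 hw).resolve_left hq
  · rw [codisjoint_iff, eq_top_iff]
    intro v _
    obtain ⟨q, hq, hv⟩ := hC v
    have h1 := aeval_apply_eq C q v
    have h2 : v = (q.eval 0)⁻¹ • aeval C q v - C ((q.eval 0)⁻¹ • aeval C q.divX v) := by
      rw [h1, smul_add, smul_smul, inv_mul_cancel₀ hq, one_smul, map_smul, add_sub_cancel_right]
    rw [h2]
    refine Submodule.sub_mem _ (Submodule.mem_sup_left ?_) (Submodule.mem_sup_right ⟨_, rfl⟩)
    rw [LinearMap.mem_ker, map_smul, hv, smul_zero]

/-- The Green operator and the projection to the kernel. -/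
structure Green (C : Module.End k V) where
  /-- the inverse of `C` on the range -/
  G : Module.End k V
  /-- the projection to the kernel -/
  P : Module.End k V
  add : ∀ v, P v + C (G v) = v
  CP : ∀ v, C (P v) = 0
  PC : ∀ v, P (C v) = 0
  Pk : ∀ v, C v = 0 → P v = v
  PG : ∀ v, P (G v) = 0
  GP : ∀ v, G (P v) = 0
  GC : ∀ v, G (C v) = C (G v)

theorem IsP.exists_green {C : Module.End k V} (hC : IsP C) : Nonempty (Green C) := by
  have hc := hC.isCompl
  let P : Module.End k V := (LinearMap.ker C).subtype ∘ₗ Submodule.projectionOnto _ _ hc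
  have hPk : ∀ v, C v = 0 → P v = v := fun v hv => by
    have := Submodule.projectionOnto_apply_left hc ⟨v, hv⟩
    exact congrArg Subtype.val this
  have hCP : ∀ v, C (P v) = 0 := fun v => (Submodule.projectionOnto _ _ hc v).2
  have hPC : ∀ v, P (C v) = 0 := fun v => by
    have := Submodule.projectionOnto_apply_right hc ⟨C v, v, rfl⟩
    exact congrArg Subtype.val this
  have hr : ∀ v, v - P v ∈ LinearMap.range C := fun v => by
    have hs : v ∈ LinearMap.ker C ⊔ LinearMap.range C := by
      rw [hc.sup_eq_top]; exact Submodule.mem_top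
    obtain ⟨a, ha, b, ⟨c, rfl⟩, rfl⟩ := Submodule.mem_sup.1 hs
    rw [map_add, hPk a ha, hPC, add_zero, add_sub_cancel_left]
    exact ⟨c, rfl⟩
  let R : Module.End k V := C
  let Cr : LinearMap.range C →ₗ[k] LinearMap.range C :=
    C.restrict (fun v _ => ⟨v, rfl⟩)
  have hCr : Function.Bijective Cr := by
    constructor
    · rw [← LinearMap.ker_eq_bot, LinearMap.ker_eq_bot']
      rintro ⟨v, hv⟩ h
      have h1 : C v = 0 := congrArg Subtype.val h
      have h2 : v ∈ LinearMap.ker C ⊓ LinearMap.range C := ⟨h1, hv⟩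
      rw [hc.inf_eq_bot] at h2
      exact Subtype.ext ((Submodule.mem_bot k).1 h2)
    · rintro ⟨v, w, rfl⟩
      obtain ⟨u, hu⟩ := hr w
      refine ⟨⟨C u, u, rfl⟩, Subtype.ext ?_⟩
      change C (C u) = C w
      rw [hu, map_sub, hCP, sub_zero]
  let e := LinearEquiv.ofBijective Cr hCr
  let Q : V →ₗ[k] LinearMap.range C := LinearMap.codRestrict _ (LinearMap.id - P) hr
  let G : Module.End k V := (LinearMap.range C).subtype ∘ₗ e.symm.toLinearMap ∘ₗ Q
  have hCG : ∀ v, C (G v) = v - P v := fun v => by
    have := e.apply_symm_apply (Q v)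
    exact congrArg Subtype.val this
  refine ⟨⟨G, P, fun v => by rw [hCG, add_sub_cancel], hCP, hPC, hPk, ?_, ?_, ?_⟩⟩
  · intro v
    obtain ⟨u, hu⟩ := (e.symm (Q v)).2
    have : G v = C u := hu.symm
    rw [this, hPC]
  · intro v
    have : Q (P v) = 0 := Subtype.ext (by
      change P v - P (P v) = 0
      rw [hPk (P v) (hCP v), sub_self])
    change ((e.symm (Q (P v)) : LinearMap.range C) : V) = 0
    rw [this, map_zero]
    rfl
  · intro v
    rw [hCG]
    have h1 : Q (C v) = e (Q v) := Subtype.ext (by
      change C v - P (C v) = C (v - P v)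
      rw [hPC, map_sub, hCP])
    change ((e.symm (Q (C v)) : LinearMap.range C) : V) = _
    rw [h1, LinearEquiv.symm_apply_apply]
    rfl

/-- The Green operator of `C`. -/
def IsP.green {C : Module.End k V} (hC : IsP C) : Green C := Classical.choice hC.exists_green

theorem Green.map_P {C : Module.End k V} {C' : Module.End k W} (g : Green C) (g' : Green C')
    {T : V →ₗ[k] W} (h : ∀ v, T (C v) = C' (T v)) (v : V) : T (g.P v) = g'.P (T v) := by
  have h1 : T v = T (g.P v) + C' (T (g.G v)) := by
    rw [← h, ← map_add, g.add]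
  rw [h1, map_add, g'.PC, add_zero, g'.Pk]
  rw [← h, g.CP, map_zero]

theorem Green.map_G {C : Module.End k V} {C' : Module.End k W} (g : Green C) (g' : Green C')
    {T : V →ₗ[k] W} (h : ∀ v, T (C v) = C' (T v)) (v : V) : T (g.G v) = g'.G (T v) := by
  have h1 : T v = T (g.P v) + C' (T (g.G v)) := by
    rw [← h, ← map_add, g.add]
  rw [h1, map_add, g.map_P g' h, g'.GP, zero_add, g'.GC]
  have h2 : T (g.G v) = g'.P (T (g.G v)) + C' (g'.G (T (g.G v))) := (g'.add _).symm
  rw [← g.map_P g' h, g.PG, map_zero, zero_add] at h2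
  exact h2

theorem Green.eq_of_range {C : Module.End k V} (g : Green C) {v : V} {a : k} (ha : a ≠ 0)
    (h : C v = a • v) : g.P v = 0 := by
  have : v = C (a⁻¹ • v) := by rw [map_smul, h, smul_smul, inv_mul_cancel₀ ha, one_smul]
  rw [this, g.PC]

/-- A perturbed contraction. -/
theorem exact_of_nil {D s T : Module.End k V} (hD : ∀ v, D (D v) = 0)
    (hT : ∀ v, D (s v) + s (D v) = v + T v) (gr : ℤ → Submodule k V)
    (hDg : ∀ p, ∀ v ∈ gr p, D v ∈ gr (p + 1)) (hsg : ∀ p, ∀ v ∈ gr (p + 1), s v ∈ gr p) (n : ℕ) :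
    ∀ p, ∀ v ∈ gr (p + 1), D v = 0 → (T ^ n) v = 0 → ∃ w ∈ gr p, D w = v := by
  have hDT : ∀ v, D (T v) = T (D v) := by
    intro v
    have h1 := hT v
    have h2 := hT (D v)
    rw [hD, map_zero, add_zero] at h2
    have h3 := congrArg D h1
    rw [map_add, hD, zero_add, map_add] at h3
    rw [h3] at h2
    exact add_left_cancel h2
  induction n with
  | zero =>
    intro p v _ _ h
    rw [pow_zero, Module.End.one_apply] at h
    exact ⟨0, Submodule.zero_mem _, by rw [map_zero, h]⟩
  | succ n ih =>
    intro p v hv hDv h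
    rw [pow_succ, Module.End.mul_apply] at h
    have h1 := hT v
    rw [hDv, map_zero, add_zero] at h1
    have h2 : T v = D (s v) - v := by rw [h1, add_sub_cancel_left]
    have h3 : T v ∈ gr (p + 1) := by
      rw [h2]
      exact Submodule.sub_mem _ (hDg p _ (hsg p v hv)) hv
    obtain ⟨w, hw, hw2⟩ := ih p (T v) h3 (by rw [hDT, hDv, map_zero]) h
    refine ⟨s v - w, Submodule.sub_mem _ (hsg p v hv) hw, ?_⟩
    rw [map_sub, hw2, h2, sub_sub_cancel]

end

end Vale.Agent.P286.H341
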