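import Vale.Agent.P286.H341.Kz

/-!
# The coefficients of the Koszul complex of the Weil algebra
-/

namespace Vale.Agent.P286.H341

open TensorProduct MvPolynomial

noncomputable section

set_option linter.unusedSectionVars false

/-- The operator of a derivation. -/
abbrev dop {S : Type} [CommRing S] [Algebra ℂ S] (v : Derivation ℂ S S) : Module.End ℂ S :=
  v.toLinearMap

/-- The operator of multiplication. -/
abbrev mop {S : Type} [CommRing S] [Algebra ℂ S] (f : S) : Module.End ℂ S := LinearMap.mulLeft ℂ f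

/-- The ring of invariant polynomials on a Lie algebra. -/
structure SD {α : Type} [Fintype α] [DecidableEq α] (c : α → α → α → ℂ) (n : ℕ) (S : Type)
    [CommRing S] [Algebra ℂ S] where
  /-- the representation of the basis -/
  r : α → Derivation ℂ S S
  /-- the representation of the dual basis -/
  r' : α → Derivation ℂ S S
  /-- the coordinates -/
  F : α → S
  /-- the invariants -/
  y : Py n →ₐ[ℂ] S
  /-- the augmentation -/
  ag : S →ₐ[ℂ] ℂ
  rr : ∀ a b, dop (r a) * dop (r b) - dop (r b) * dop (r a) = ∑ k, c a b k • dop (r k)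
  rr' : ∀ b a, dop (r b) * dop (r' a) - dop (r' a) * dop (r b) = -∑ k, c b k a • dop (r' k)
  anti : ∀ a b k, c a b k = -c b a k
  unim : ∀ k, ∑ b, c b k b = 0
  P : IsP (∑ a, dop (r a) * dop (r' a))
  ker : ∀ x, (∑ a, dop (r a) * dop (r' a)) x = 0 → ∃ p, y p = x
  ry : ∀ a p, r a (y p) = 0
  r'y : ∀ a p, r' a (y p) = 0
  inj : Function.Injective y
  agr : ∀ a x, ag (r a x) = 0
  agr' : ∀ a x, ag (r' a x) = 0
  agy : ∀ i, ag (y (X i)) = 0
  agF : ∀ a, ag (F a) = 0

namespace SD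

variable {α : Type} [Fintype α] [DecidableEq α] {c : α → α → α → ℂ} {n : ℕ} {S : Type}
  [CommRing S] [Algebra ℂ S] (d : SD c n S)

/-- The Casimir operator. -/
def C : Module.End ℂ S := ∑ a, dop (d.r a) * dop (d.r' a)

theorem C_apply (x : S) : d.C x = ∑ a, d.r a (d.r' a x) := by
  rw [C, LinearMap.sum_apply]
  rfl

/-- The Green operator. -/
def gS : Green d.C := d.P.green

theorem C_mul (p : Py n) (x : S) : d.C (d.y p * x) = d.y p * d.C x := by
  rw [C_apply, C_apply, Finset.mul_sum]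
  refine Finset.sum_congr rfl fun a _ => ?_
  rw [Derivation.leibniz, d.r'y, smul_zero, add_zero, smul_eq_mul, Derivation.leibniz, d.ry,
    smul_zero, add_zero, smul_eq_mul]

theorem P_mul (p : Py n) (x : S) : d.gS.P (d.y p * x) = d.y p * d.gS.P x :=
  (d.gS.map_P d.gS (T := LinearMap.mulLeft ℂ (d.y p)) (fun v => (d.C_mul p v).symm) x).symm

theorem P_mem (x : S) : ∃ p, d.y p = d.gS.P x := d.ker _ (d.gS.CP x)

/-- The polynomial in the invariants which is the projection of `x`. -/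
def rY : S →ₗ[ℂ] Py n where
  toFun x := (d.P_mem x).choose
  map_add' x x' := d.inj ((d.P_mem (x + x')).choose_spec.trans (by
    rw [map_add d.y, (d.P_mem x).choose_spec, (d.P_mem x').choose_spec, map_add]))
  map_smul' a x := d.inj ((d.P_mem (a • x)).choose_spec.trans (by
    rw [RingHom.id_apply, map_smul d.y, (d.P_mem x).choose_spec, map_smul]))

theorem y_rY (x : S) : d.y (d.rY x) = d.gS.P x := (d.P_mem x).choose_spec

theorem rY_mul (i : Fin n) (x : S) : d.rY (d.y (X i) * x) = X i * d.rY x := by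
  apply d.inj
  rw [y_rY, P_mul, map_mul, y_rY]

theorem rY_r (a : α) (x : S) : d.rY (d.r a x) = 0 := by
  apply d.inj
  have h := d.gS.map_P d.gS (T := dop (d.r a))
    (fun v => LinearMap.congr_fun (cas_central d.rr d.rr' a) v) x
  rw [y_rY, map_zero]
  obtain ⟨p, hp⟩ := d.P_mem x
  refine h.symm.trans ?_
  rw [← hp]
  exact d.ry a p

theorem cc_eq (p : Py n) : cc p = d.ag (d.y p) := by
  have h : (aeval (fun _ => (0 : ℂ)) : Py n →ₐ[ℂ] ℂ) = d.ag.comp d.y := by
    apply MvPolynomial.algHom_ext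
    intro i
    rw [aeval_X, AlgHom.comp_apply, d.agy]
  exact congrArg (fun f : Py n →ₐ[ℂ] ℂ => f p) h

theorem ag_P (x : S) : d.ag (d.gS.P x) = d.ag x := by
  conv_rhs => rw [← d.gS.add x]
  rw [map_add, C_apply, map_sum, Finset.sum_eq_zero fun a _ => d.agr a _, add_zero]

theorem cc_rY (x : S) : cc (d.rY x) = d.ag x := by
  rw [d.cc_eq, y_rY, ag_P]

end SD

section Map1

variable {α : Type} [Fintype α] [DecidableEq α] {M N : Type} [AddCommGroup M] [Module ℂ M]
  [AddCommGroup N] [Module ℂ N]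

/-- The map `1 ⊗ f`. -/
def KV.map1 (f : M →ₗ[ℂ] N) : KV α M →ₗ[ℂ] KV α N := TensorProduct.map LinearMap.id f

theorem KV.map1_tt (f : M →ₗ[ℂ] N) (x : Ex α) (m : M) : KV.map1 f (tt x m) = tt x (f m) := rfl

/-- The map `m ↦ x ⊗ m`. -/
def KV.el (x : Ex α) : M →ₗ[ℂ] KV α M where
  toFun m := tt x m
  map_add' := KV.tt_add' x
  map_smul' c m := KV.tt_smul' c x m

theorem isP_tm {C : Module.End ℂ M} (h : IsP C) : IsP (tm (1 : Module.End ℂ (Ex α)) C) := by
  intro v
  induction v using KV.ind with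
  | h0 => exact Submodule.zero_mem _
  | ha v w hv hw => exact Submodule.add_mem _ hv hw
  | h x m => exact map_mem_PV (T := KV.el x) (fun m => (tm_tt 1 C x m).symm) (h m)

theorem green_tm {C : Module.End ℂ M} (g : Green C) (g' : Green (tm (1 : Module.End ℂ (Ex α)) C))
    (x : Ex α) (m : M) : g'.P (tt x m) = tt x (g.P m) :=
  (g.map_P g' (T := KV.el x) (fun m => (tm_tt 1 C x m).symm) m).symm

end Map1

namespace SD

variable {α : Type} [Fintype α] [DecidableEq α] {c : α → α → α → ℂ} {n : ℕ} {S : Type}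
  [CommRing S] [Algebra ℂ S] (d : SD c n S)

theorem casM : ∑ a, tm (1 : Module.End ℂ (Ex (Fin n))) (dop (d.r a)) * tm 1 (dop (d.r' a)) =
    tm 1 d.C := by
  rw [C, tm_sum]
  exact Finset.sum_congr rfl fun a _ => by rw [tm_mul, one_mul]

/-- The Green operator. -/
def gM : Green (∑ a, tm (1 : Module.End ℂ (Ex (Fin n))) (dop (d.r a)) * tm 1 (dop (d.r' a))) :=
  IsP.green (by rw [d.casM]; exact isP_tm d.P)

theorem gM_P (x : Ex (Fin n)) (m : S) : d.gM.P (tt x m) = tt x (d.gS.P m) := by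
  have h : ∀ m, KV.el x (d.C m) = (∑ a, tm (1 : Module.End ℂ (Ex (Fin n))) (dop (d.r a)) *
      tm 1 (dop (d.r' a)) : Module.End ℂ (KV (Fin n) S)) (KV.el x m) := by
    intro m
    rw [d.casM]
    exact (tm_tt 1 d.C x m).symm
  exact (d.gS.map_P d.gM (T := KV.el x) h m).symm

/-- The Koszul differential. -/
def dl : Module.End ℂ (KV (Fin n) S) := ∑ i, tm (Ex.io i) (mop (d.y (X i)))

theorem dl_tt (x : Ex (Fin n)) (m : S) : d.dl (tt x m) = ∑ i, tt (Ex.io i x) (d.y (X i) * m) := by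
  rw [dl, LinearMap.sum_apply]
  exact Finset.sum_congr rfl fun i _ => tm_tt _ _ _ _

theorem kd_tt (x : Ex (Fin n)) (p : Py n) : kd (tt x p) = ∑ i, tt (Ex.io i x) (X i * p) := by
  rw [kd, LinearMap.sum_apply]
  exact Finset.sum_congr rfl fun i _ => tm_tt _ _ _ _

/-- The contraction of the invariants. -/
def sg : Module.End ℂ (KV (Fin n) S) := KV.map1 d.y.toLinearMap ∘ₗ ks ∘ₗ KV.map1 d.rY

theorem dl_y (w : KV (Fin n) (Py n)) :
    d.dl (KV.map1 d.y.toLinearMap w) = KV.map1 d.y.toLinearMap (kd w) := by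
  refine KV.hom_ext (f := d.dl ∘ₗ KV.map1 d.y.toLinearMap)
    (g := KV.map1 d.y.toLinearMap ∘ₗ kd) (fun x p => ?_) w
  rw [LinearMap.comp_apply, LinearMap.comp_apply, KV.map1_tt, dl_tt, kd_tt, map_sum]
  refine Finset.sum_congr rfl fun i _ => ?_
  rw [KV.map1_tt]
  change _ = tt _ (d.y (X i * p))
  rw [map_mul d.y]
  rfl

theorem rY_dl (v : KV (Fin n) S) : KV.map1 d.rY (d.dl v) = kd (KV.map1 d.rY v) := by
  refine KV.hom_ext (f := KV.map1 d.rY ∘ₗ d.dl) (g := kd ∘ₗ KV.map1 d.rY) (fun x p => ?_) v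
  rw [LinearMap.comp_apply, LinearMap.comp_apply, KV.map1_tt, dl_tt, kd_tt, map_sum]
  refine Finset.sum_congr rfl fun i _ => ?_
  rw [KV.map1_tt, rY_mul]

theorem aug_rY (v : KV (Fin n) S) : KV.aug cc (KV.map1 d.rY v) = KV.aug d.ag.toLinearMap v := by
  refine KV.hom_ext (f := KV.aug cc ∘ₗ KV.map1 d.rY) (g := KV.aug d.ag.toLinearMap)
    (fun x p => ?_) v
  rw [LinearMap.comp_apply, KV.map1_tt, KV.aug_tt, KV.aug_tt, cc_rY]
  rfl

theorem aug_y (w : KV (Fin n) (Py n)) :
    KV.aug d.ag.toLinearMap (KV.map1 d.y.toLinearMap w) = KV.aug cc w := by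
  refine KV.hom_ext (f := KV.aug d.ag.toLinearMap ∘ₗ KV.map1 d.y.toLinearMap) (g := KV.aug cc)
    (fun x p => ?_) w
  rw [LinearMap.comp_apply, KV.map1_tt, KV.aug_tt, KV.aug_tt, d.cc_eq]
  rfl

theorem y_rY_map (v : KV (Fin n) S) :
    KV.map1 d.y.toLinearMap (KV.map1 d.rY v) = d.gM.P v := by
  refine KV.hom_ext (f := KV.map1 d.y.toLinearMap ∘ₗ KV.map1 d.rY) (g := d.gM.P)
    (fun x p => ?_) v
  rw [LinearMap.comp_apply, KV.map1_tt, KV.map1_tt, gM_P, ← y_rY]
  rfl

/-- The augmentation followed by the unit. -/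
def pj : Module.End ℂ (KV (Fin n) S) :=
  (KV.aug d.ag.toLinearMap).smulRight (tt (1 : Ex (Fin n)) (1 : S))

theorem pj_apply (v : KV (Fin n) S) : d.pj v = KV.aug d.ag.toLinearMap v • tt (1 : Ex (Fin n)) (1 : S) := rfl

theorem pj_mul_eq_zero {T : Module.End ℂ (KV (Fin n) S)}
    (h : ∀ x m, KV.aug d.ag.toLinearMap (T (tt x m)) = 0) : d.pj * T = 0 := by
  refine LinearMap.ext fun v => ?_
  change d.pj (T v) = 0
  rw [pj_apply]
  have : KV.aug d.ag.toLinearMap (T v) = 0 :=
    KV.hom_ext (f := KV.aug d.ag.toLinearMap ∘ₗ T) (g := 0) h v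
  rw [this, zero_smul]

/-- The operators on `Λ(ξ) ⊗ S`. -/
def kd' : KD c (KV (Fin n) S) where
  rho a := tm 1 (dop (d.r a))
  rh a := tm 1 (dop (d.r' a))
  F a := tm 1 (mop (d.F a))
  dl := d.dl
  sg := d.sg
  pj := d.pj
  gr := d.gM
  rho_rho a b := by
    rw [tm_mul, tm_mul, ← tm_sub, d.rr, tm_sum]
    simp only [tm_smul, one_mul]
  rho_rh b a := by
    rw [tm_mul, tm_mul, ← tm_sub, d.rr', tm_neg, tm_sum]
    simp only [tm_smul, one_mul]
  anti := d.anti
  unim := d.unim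
  dl_rho a := by
    rw [dl, Finset.sum_mul, Finset.mul_sum]
    refine Finset.sum_congr rfl fun i _ => ?_
    rw [tm_mul, tm_mul, one_mul, mul_one]
    congr 1
    refine LinearMap.ext fun x => ?_
    change d.y (X i) * d.r a x = d.r a (d.y (X i) * x)
    rw [Derivation.leibniz, d.ry, smul_zero, add_zero, smul_eq_mul]
  dl_rh a := by
    rw [dl, Finset.sum_mul, Finset.mul_sum]
    refine Finset.sum_congr rfl fun i _ => ?_
    rw [tm_mul, tm_mul, one_mul, mul_one]
    congr 1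
    refine LinearMap.ext fun x => ?_
    change d.y (X i) * d.r' a x = d.r' a (d.y (X i) * x)
    rw [Derivation.leibniz, d.r'y, smul_zero, add_zero, smul_eq_mul]
  sg_rho a := by
    refine LinearMap.ext fun v => ?_
    refine KV.hom_ext (f := d.sg ∘ₗ tm 1 (dop (d.r a))) (g := 0) (fun x m => ?_) v
    change KV.map1 d.y.toLinearMap (ks (KV.map1 d.rY (tm 1 (dop (d.r a)) (tt x m)))) = 0
    rw [tm_tt, KV.map1_tt]
    have h : d.rY (dop (d.r a) m) = 0 := d.rY_r a m
    rw [h, KV.tt_zero', map_zero, map_zero]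
  rho_sg a := by
    refine LinearMap.ext fun v => ?_
    change tm 1 (dop (d.r a)) (KV.map1 d.y.toLinearMap (ks (KV.map1 d.rY v))) = 0
    refine KV.hom_ext (f := tm 1 (dop (d.r a)) ∘ₗ KV.map1 d.y.toLinearMap) (g := 0)
      (fun x p => ?_) _
    rw [LinearMap.comp_apply, KV.map1_tt, tm_tt]
    have h : dop (d.r a) (d.y.toLinearMap p) = 0 := d.ry a p
    rw [h, KV.tt_zero']
    rfl
  dl_sg := by
    refine LinearMap.ext fun v => ?_
    change d.dl (d.sg v) + d.sg (d.dl v) = d.gM.P v - d.pj v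
    change d.dl (KV.map1 d.y.toLinearMap (ks (KV.map1 d.rY v))) +
      KV.map1 d.y.toLinearMap (ks (KV.map1 d.rY (d.dl v))) = _
    rw [dl_y, rY_dl, ← map_add, kd_ks, map_sub, y_rY_map, aug_rY, map_smul, KV.map1_tt, pj_apply]
    congr 3
    exact map_one d.y
  pj_rho a := d.pj_mul_eq_zero fun x m => by
    rw [tm_tt, KV.aug_tt]
    change _ * d.ag (d.r a m) = 0
    rw [d.agr, mul_zero]
  pj_rh a := d.pj_mul_eq_zero fun x m => by
    rw [tm_tt, KV.aug_tt]
    change _ * d.ag (d.r' a m) = 0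
    rw [d.agr', mul_zero]
  pj_sg := d.pj_mul_eq_zero fun x m => by
    change KV.aug d.ag.toLinearMap (KV.map1 d.y.toLinearMap (ks (KV.map1 d.rY (tt x m)))) = 0
    rw [aug_y, aug_ks]
  pj_F a := d.pj_mul_eq_zero fun x m => by
    rw [tm_tt, KV.aug_tt]
    change _ * d.ag (d.F a * m) = 0
    rw [map_mul, d.agF, zero_mul, mul_zero]
  pj_dl := d.pj_mul_eq_zero fun x m => by
    rw [dl_tt, map_sum]
    refine Finset.sum_eq_zero fun i _ => ?_
    rw [KV.aug_tt]
    change _ * d.ag (d.y (X i) * m) = 0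
    rw [map_mul, d.agy, zero_mul, mul_zero]

end SD

end

end Vale.Agent.P286.H341
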