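import Vale.Agent.P286.H341.Op

/-!
# The Koszul complex of a polynomial ring on its variables
-/

namespace Vale.Agent.P286.H341

open TensorProduct MvPolynomial

noncomputable section

set_option linter.unusedSectionVars false

section Aug

variable {α : Type} [Fintype α] [DecidableEq α] {M : Type} [AddCommGroup M] [Module ℂ M]

/-- The augmentation of the exterior algebra. -/
def Ex.aug : Ex α →ₐ[ℂ] ℂ := ExteriorAlgebra.lift ℂ ⟨0, fun m => by simp⟩

theorem Ex.aug_ι_mul (v : α → ℂ) (x : Ex α) : Ex.aug (ExteriorAlgebra.ι ℂ v * x) = 0 := by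
  rw [map_mul, Ex.aug, ExteriorAlgebra.lift_ι_apply, LinearMap.zero_apply, zero_mul]

theorem Ex.aug_nb (x : Ex α) : Ex.aug (Ex.nb x) = 0 := by
  rw [Ex.nb_apply, map_sum]
  exact Finset.sum_eq_zero fun a _ => Ex.aug_ι_mul _ _

theorem Ex.span_nb (x : Ex α) :
    x ∈ Submodule.span ℂ ({1} ∪ {y : Ex α | ∃ k : ℕ, k ≠ 0 ∧ Ex.nb y = (k : ℂ) • y}) := by
  induction x using Ex.ind with
  | h1 => exact Submodule.subset_span (Or.inl rfl)
  | hs c x hx => exact Submodule.smul_mem _ _ hx
  | ha x y hx hy => exact Submodule.add_mem _ hx hy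
  | hm v x hx =>
    induction hx using Submodule.span_induction with
    | mem y hy =>
      apply Submodule.subset_span
      right
      rcases hy with hy | ⟨k, hk, hy⟩
      · rw [Set.mem_singleton_iff] at hy
        subst hy
        refine ⟨1, one_ne_zero, ?_⟩
        rw [Ex.nb_ι_mul, Ex.nb_one, mul_zero, add_zero, Nat.cast_one, one_smul]
      · refine ⟨k + 1, Nat.succ_ne_zero k, ?_⟩
        rw [Ex.nb_ι_mul, hy, mul_smul_comm, Nat.cast_add, Nat.cast_one, add_smul, one_smul, add_comm]
    | zero => rw [mul_zero]; exact Submodule.zero_mem _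
    | add y z _ _ hy hz => rw [mul_add]; exact Submodule.add_mem _ hy hz
    | smul c y _ hy => rw [mul_smul_comm]; exact Submodule.smul_mem _ _ hy

theorem KV.tt_add' (x : Ex α) (m m' : M) : tt x (m + m') = tt x m + tt x m' :=
  TensorProduct.tmul_add _ _ _

theorem KV.tt_add (x x' : Ex α) (m : M) : tt (x + x') m = tt x m + tt x' m :=
  TensorProduct.add_tmul _ _ _

theorem KV.tt_smul (c : ℂ) (x : Ex α) (m : M) : tt (c • x) m = c • tt x m :=
  (TensorProduct.smul_tmul' _ _ _).symm

theorem KV.tt_smul' (c : ℂ) (x : Ex α) (m : M) : tt x (c • m) = c • tt x m :=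
  TensorProduct.tmul_smul _ _ _

theorem KV.tt_zero' (x : Ex α) : tt x (0 : M) = 0 := TensorProduct.tmul_zero _ _

theorem KV.tt_zero (m : M) : tt (0 : Ex α) m = 0 := TensorProduct.zero_tmul _ _

/-- The augmentation. -/
def KV.aug (f : M →ₗ[ℂ] ℂ) : KV α M →ₗ[ℂ] ℂ :=
  (TensorProduct.lid ℂ ℂ).toLinearMap ∘ₗ TensorProduct.map Ex.aug.toLinearMap f

theorem KV.aug_tt (f : M →ₗ[ℂ] ℂ) (x : Ex α) (m : M) : KV.aug f (tt x m) = Ex.aug x * f m := rfl

/-- Two linear maps which agree on the pure tensors. -/
theorem KV.hom_ext {W : Type} [AddCommGroup W] [Module ℂ W] {f g : KV α M →ₗ[ℂ] W}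
    (h : ∀ x m, f (tt x m) = g (tt x m)) (v : KV α M) : f v = g v := by
  induction v using KV.ind with
  | h0 => rw [map_zero, map_zero]
  | h x m => exact h x m
  | ha v w hv hw => rw [map_add, map_add, hv, hw]

end Aug

section Kz

variable {n : ℕ}

/-- The polynomial ring. -/
abbrev Py (n : ℕ) : Type := MvPolynomial (Fin n) ℂ

/-- Multiplication by a variable. -/
def mlo (i : Fin n) : Module.End ℂ (Py n) := LinearMap.mulLeft ℂ (X i)

/-- The partial derivative. -/
def pdo (i : Fin n) : Module.End ℂ (Py n) := (pderiv i : Derivation ℂ (Py n) (Py n)).toLinearMap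

theorem mlo_apply (i : Fin n) (f : Py n) : mlo i f = X i * f := rfl

theorem pdo_apply (i : Fin n) (f : Py n) : pdo i f = pderiv i f := rfl

theorem pdo_mlo (i j : Fin n) : pdo i * mlo j = mlo j * pdo i + if j = i then 1 else 0 := by
  refine LinearMap.ext fun f => ?_
  rw [LinearMap.add_apply, Module.End.mul_apply, Module.End.mul_apply, mlo_apply, mlo_apply,
    pdo_apply, pdo_apply, Derivation.leibniz, smul_eq_mul, smul_eq_mul, pderiv_X]
  by_cases h : j = i
  · subst h
    simp
  · simp [h]

/-- The degree. -/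
def degO : Module.End ℂ (Py n) := ∑ i, mlo i * pdo i

theorem degO_monomial (s : Fin n →₀ ℕ) (a : ℂ) :
    degO (monomial s a) = ((s.degree : ℕ) : ℂ) • monomial s a := by
  rw [degO, LinearMap.sum_apply]
  have h : ∀ i, (mlo i * pdo i) (monomial s a) = ((s i : ℕ) : ℂ) • monomial s a := by
    intro i
    rw [Module.End.mul_apply, mlo_apply, pdo_apply, pderiv_monomial, X, monomial_mul, one_mul, smul_monomial, smul_eq_mul, mul_comm a]
    by_cases h : s i = 0
    · rw [h, Nat.cast_zero, zero_mul, monomial_zero, monomial_zero]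
    · congr 2
      ext j
      by_cases hj : i = j
      · subst hj
        simp
        omega
      · simp [hj]
  simp only [h]
  rw [← Finset.sum_smul, ← Nat.cast_sum, Finsupp.degree_eq_sum]

/-- The Koszul differential. -/
def kd : Module.End ℂ (KV (Fin n) (Py n)) := ∑ i, tm (Ex.io i) (mlo i)

/-- The opposite operator. -/
def kh : Module.End ℂ (KV (Fin n) (Py n)) :=
  ∑ i, tm (Ex.th i) (pdo i)

/-- The Euler operator. -/
def kE : Module.End ℂ (KV (Fin n) (Py n)) := tm Ex.nb 1 + tm 1 degO

theorem tm_sum' {κ α M : Type} [Fintype α] [DecidableEq α] [AddCommGroup M] [Module ℂ M] (s : Finset κ)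
    (S : κ → Module.End ℂ (Ex α)) (T : Module.End ℂ M) :
    tm (∑ i ∈ s, S i) T = ∑ i ∈ s, tm (S i) T := by
  classical
  induction s using Finset.induction_on with
  | empty => rw [Finset.sum_empty, Finset.sum_empty, tm_zero']
  | insert a s ha ih => rw [Finset.sum_insert ha, Finset.sum_insert ha, tm_add', ih]

theorem kd_kh_aux (i j : Fin n) : tm (Ex.io j) (mlo j) * tm (Ex.th i) (pdo i) +
    tm (Ex.th i) (pdo i) * tm (Ex.io j) (mlo j) =
      if j = i then tm 1 (mlo j * pdo i) + tm (Ex.th i * Ex.io j) 1 else 0 := by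
  have e1 : Ex.io j * Ex.th i = (if j = i then 1 else 0) - Ex.th i * (Ex.io j : Module.End ℂ (Ex (Fin n))) := by
    rw [← Ex.io_th j i]
    exact (add_sub_cancel_right _ _).symm
  rw [tm_mul, tm_mul, pdo_mlo, tm_add, e1]
  by_cases h : j = i
  · rw [if_pos h, if_pos h, if_pos h]
    have e2 : tm (1 - Ex.th i * (Ex.io j : Module.End ℂ (Ex (Fin n)))) (mlo j * pdo i) =
        tm 1 (mlo j * pdo i) - tm (Ex.th i * Ex.io j) (mlo j * pdo i) := by
      rw [sub_eq_add_neg, tm_add', tm_neg', ← sub_eq_add_neg]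
    rw [e2]
    abel
  · rw [if_neg h, if_neg h, if_neg h, tm_zero, add_zero, ← tm_add', sub_add_cancel, tm_zero']

theorem kd_kh : kd * kh + kh * kd = (kE : Module.End ℂ (KV (Fin n) (Py n))) := by
  have h1 : (kd * kh + kh * kd : Module.End ℂ (KV (Fin n) (Py n))) = ∑ i, ∑ j,
      (tm (Ex.io j) (mlo j) * tm (Ex.th i) (pdo i) + tm (Ex.th i) (pdo i) * tm (Ex.io j) (mlo j)) := by
    rw [kd, kh, Finset.sum_mul_sum, Finset.sum_mul_sum]
    conv_lhs => arg 1; rw [Finset.sum_comm]
    simp only [Finset.sum_add_distrib]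
  rw [h1]
  simp only [kd_kh_aux, Finset.sum_ite_eq', Finset.mem_univ, if_true]
  rw [Finset.sum_add_distrib, kE, add_comm]
  congr 1
  · rw [Ex.nb, tm_sum']
  · rw [degO, tm_sum]

theorem kE_span (v : KV (Fin n) (Py n)) : v ∈ Submodule.span ℂ ({tt 1 1} ∪
    {w : KV (Fin n) (Py n) | ∃ c : ℂ, c ≠ 0 ∧ kE w = c • w}) := by
  induction v using KV.ind with
  | h0 => exact Submodule.zero_mem _
  | ha v w hv hw => exact Submodule.add_mem _ hv hw
  | h x f =>
    have hx := Ex.span_nb x
    induction hx using Submodule.span_induction with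
    | zero => rw [KV.tt_zero]; exact Submodule.zero_mem _
    | add y z _ _ hy hz => rw [KV.tt_add]; exact Submodule.add_mem _ hy hz
    | smul c y _ hy => rw [KV.tt_smul]; exact Submodule.smul_mem _ _ hy
    | mem y hy =>
      induction f using MvPolynomial.induction_on' with
      | add f g hf hg => rw [KV.tt_add']; exact Submodule.add_mem _ hf hg
      | monomial s a =>
        have hE : kE (tt y (monomial s a)) = tt (Ex.nb y) (monomial s a) +
            ((s.degree : ℕ) : ℂ) • tt y (monomial s a) := by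
          rw [kE, LinearMap.add_apply, tm_tt, tm_tt, degO_monomial, KV.tt_smul']
          rfl
        rcases hy with hy | ⟨k, hk, hy⟩
        · rw [Set.mem_singleton_iff] at hy
          subst hy
          by_cases hs : s.degree = 0
          · have : s = 0 := (Finsupp.degree_eq_zero_iff s).1 hs
            subst this
            have h1 : (monomial 0 a : Py n) = a • 1 := by
              rw [← MvPolynomial.C_apply, Algebra.smul_def, mul_one]; rfl
            rw [h1, KV.tt_smul']
            exact Submodule.smul_mem _ _ (Submodule.subset_span (Or.inl rfl))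
          · apply Submodule.subset_span
            right
            refine ⟨(s.degree : ℕ), Nat.cast_ne_zero.2 hs, ?_⟩
            rw [hE, Ex.nb_one, KV.tt_zero, zero_add]
        · apply Submodule.subset_span
          right
          refine ⟨((k + s.degree : ℕ) : ℂ), Nat.cast_ne_zero.2 (by omega), ?_⟩
          rw [hE, hy, KV.tt_smul, Nat.cast_add, add_smul]

theorem isP_kE : IsP (kE : Module.End ℂ (KV (Fin n) (Py n))) := by
  intro v
  have hv := kE_span v
  induction hv using Submodule.span_induction with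
  | zero => exact Submodule.zero_mem _
  | add y z _ _ hy hz => exact Submodule.add_mem _ hy hz
  | smul c y _ hy => exact Submodule.smul_mem _ _ hy
  | mem y hy =>
    rcases hy with hy | ⟨c, hc, hy⟩
    · rw [Set.mem_singleton_iff] at hy
      subst hy
      apply mem_PV_of_ker
      rw [kE, LinearMap.add_apply, tm_tt, tm_tt, Ex.nb_one, KV.tt_zero, zero_add]
      have h : degO (1 : Py n) = 0 := by
        have := degO_monomial (0 : Fin n →₀ ℕ) (1 : ℂ)
        rw [map_zero, Nat.cast_zero, zero_smul] at this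
        exact this
      rw [h, KV.tt_zero']
    · exact mem_PV_of_eig hy

/-- The Green operator of the Euler operator. -/
def gE : Green (kE : Module.End ℂ (KV (Fin n) (Py n))) := isP_kE.green

/-- The constant coefficient. -/
def cc : Py n →ₗ[ℂ] ℂ := (aeval (fun _ => (0 : ℂ)) : Py n →ₐ[ℂ] ℂ).toLinearMap

theorem gE_P (v : KV (Fin n) (Py n)) : gE.P v = KV.aug cc v • tt 1 1 := by
  have hE : ∀ v : KV (Fin n) (Py n), KV.aug cc (kE v) = 0 := by
    intro v
    refine KV.hom_ext (f := KV.aug cc ∘ₗ kE) (g := 0) (fun x f => ?_) v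
    change KV.aug cc (kE (tt x f)) = 0
    rw [kE, LinearMap.add_apply, tm_tt, tm_tt, map_add, KV.aug_tt, KV.aug_tt, Ex.aug_nb, zero_mul,
      zero_add]
    have : cc (degO f) = 0 := by
      rw [degO, LinearMap.sum_apply, map_sum]
      refine Finset.sum_eq_zero fun i _ => ?_
      change aeval (fun _ => (0 : ℂ)) (X i * pderiv i f) = 0
      rw [map_mul, aeval_X, zero_mul]
    rw [this, mul_zero]
  have hv := kE_span v
  induction hv using Submodule.span_induction with
  | zero => rw [map_zero, map_zero, zero_smul]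
  | add y z _ _ hy hz => rw [map_add, map_add, hy, hz, add_smul]
  | smul c y _ hy => rw [map_smul, map_smul, hy, smul_eq_mul, mul_smul]
  | mem y hy =>
    rcases hy with hy | ⟨c, hc, hy⟩
    · rw [Set.mem_singleton_iff] at hy
      subst hy
      have h1 : KV.aug cc (tt 1 1 : KV (Fin n) (Py n)) = 1 := by
        rw [KV.aug_tt, map_one]
        change (1 : ℂ) * aeval (fun _ => (0 : ℂ)) (1 : Py n) = 1
        rw [map_one, one_mul]
      rw [h1, one_smul, gE.Pk]
      rw [kE, LinearMap.add_apply, tm_tt, tm_tt, Ex.nb_one, KV.tt_zero, zero_add]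
      have h : degO (1 : Py n) = 0 := by
        have := degO_monomial (0 : Fin n →₀ ℕ) (1 : ℂ)
        rw [map_zero, Nat.cast_zero, zero_smul] at this
        exact this
      rw [h, KV.tt_zero']
    · rw [gE.eq_of_range hc hy]
      have h2 := hE y
      rw [hy, map_smul, smul_eq_mul] at h2
      rw [(mul_eq_zero.1 h2).resolve_left hc, zero_smul]

/-- The contraction of the Koszul complex. -/
def ks : Module.End ℂ (KV (Fin n) (Py n)) := gE.G * kh

theorem kd_sq : (kd * kd : Module.End ℂ (KV (Fin n) (Py n))) = 0 := by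
  have h : (kd * kd : Module.End ℂ (KV (Fin n) (Py n))) = -(kd * kd) := by
    rw [kd, Finset.sum_mul_sum]
    conv_rhs => rw [Finset.sum_comm]
    rw [← Finset.sum_neg_distrib]
    refine Finset.sum_congr rfl fun i _ => ?_
    rw [← Finset.sum_neg_distrib]
    refine Finset.sum_congr rfl fun j _ => ?_
    rw [tm_mul, tm_mul, Ex.io_io, tm_neg']
    congr 2
    refine LinearMap.ext fun f => ?_
    change X i * (X j * f) = X j * (X i * f)
    ring
  have h2 : (2 : ℂ) • (kd * kd : Module.End ℂ (KV (Fin n) (Py n))) = 0 := by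
    rw [two_smul]
    conv_lhs => arg 1; rw [h]
    rw [neg_add_cancel]
  exact (smul_eq_zero.1 h2).resolve_left two_ne_zero

theorem kd_ks (v : KV (Fin n) (Py n)) : kd (ks v) + ks (kd v) = v - KV.aug cc v • tt 1 1 := by
  have h1 : ∀ v, kd (kE v) = (kE : Module.End ℂ (KV (Fin n) (Py n))) (kd v) := by
    intro v
    have h : kd * kE = kE * (kd : Module.End ℂ (KV (Fin n) (Py n))) := by
      rw [← kd_kh, mul_add, add_mul, ← mul_assoc, kd_sq, zero_mul, zero_add, mul_assoc kh, kd_sq,
        mul_zero, add_zero, mul_assoc]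
    exact LinearMap.congr_fun h v
  have h2 : kd (ks v) = gE.G (kd (kh v)) := gE.map_G gE (T := kd) h1 (kh v)
  have h3 : ks (kd v) = gE.G (kh (kd v)) := rfl
  have h4 : kd (kh v) + kh (kd v) = kE v := LinearMap.congr_fun kd_kh v
  rw [h2, h3, ← map_add, h4, gE.GC, ← gE_P, eq_sub_iff_add_eq, add_comm, gE.add]

theorem aug_ks (v : KV (Fin n) (Py n)) : KV.aug cc (ks v) = 0 := by
  have h := gE_P (ks v)
  have h1 : gE.P (ks v) = 0 := gE.PG _
  rw [h1] at h
  have h2 := congrArg (KV.aug cc) h
  rw [map_zero, map_smul, KV.aug_tt, map_one] at h2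
  change 0 = KV.aug cc (ks v) • ((1 : ℂ) * aeval (fun _ => (0 : ℂ)) (1 : Py n)) at h2
  rw [map_one, one_mul, smul_eq_mul, mul_one] at h2
  exact h2.symm

end Kz

end

end Vale.Agent.P286.H341
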