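import Vale.Agent.P286.H341.Inst
import Vale.Agent.P286.H166.Cas5
import Vale.Agent.P286.H42.ChevE

/-!
# The invariant polynomials on a classical Lie algebra, in an orthonormal basis
-/

namespace Vale.Agent.P286.H341

open MvPolynomial Matrix
open Vale.Agent.P286

noncomputable section

set_option linter.unusedSectionVars false

section Adm

variable {I : Type} [Fintype I] [DecidableEq I] {k : ℕ}

/-- The matrix of `Y ↦ Y X - X Y`. -/
def adm (e : Fin k → Matrix I I ℂ) (X : Matrix I I ℂ) : Matrix (Fin k) (Fin k) ℂ :=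
  fun d b => trace ((e d * X - X * e d) * (e b)ᴴ)

theorem adm_apply (e : Fin k → Matrix I I ℂ) (X : Matrix I I ℂ) (d b : Fin k) :
    adm e X d b = trace ((e d * X - X * e d) * (e b)ᴴ) := rfl

theorem adm_add (e : Fin k → Matrix I I ℂ) (X Y : Matrix I I ℂ) :
    adm e (X + Y) = adm e X + adm e Y := by
  ext d b
  rw [Matrix.add_apply, adm_apply, adm_apply, adm_apply, ← trace_add, ← add_mul]
  congr 2
  rw [mul_add, add_mul]
  abel

theorem adm_smul (e : Fin k → Matrix I I ℂ) (c : ℂ) (X : Matrix I I ℂ) :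
    adm e (c • X) = c • adm e X := by
  ext d b
  rw [Matrix.smul_apply, adm_apply, adm_apply, ← trace_smul, ← smul_mul_assoc, mul_smul_comm,
    smul_mul_assoc c X, ← smul_sub]

/-- `adm` as a linear map. -/
def admL (e : Fin k → Matrix I I ℂ) : Matrix I I ℂ →ₗ[ℂ] Matrix (Fin k) (Fin k) ℂ where
  toFun := adm e
  map_add' := adm_add e
  map_smul' := adm_smul e

theorem adm_conjTranspose (e : Fin k → Matrix I I ℂ) (X : Matrix I I ℂ) :
    (adm e X)ᴴ = adm e Xᴴ := by
  ext d b
  rw [conjTranspose_apply, adm_apply, adm_apply, ← trace_conjTranspose, conjTranspose_mul,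
    conjTranspose_conjTranspose, conjTranspose_sub, conjTranspose_mul, conjTranspose_mul, mul_sub,
    sub_mul, trace_sub, trace_sub, ← mul_assoc]
  congr 1
  rw [← mul_assoc, trace_mul_comm, ← mul_assoc]

variable {g : Submodule ℂ (Matrix I I ℂ)} {e : Fin k → Matrix I I ℂ}

theorem adm_mul (h : H166.Onb g e) (hb : ∀ X ∈ g, ∀ Y ∈ g, X * Y - Y * X ∈ g)
    {X : Matrix I I ℂ} (hX : X ∈ g) (Y : Matrix I I ℂ) (d b : Fin k) :
    (adm e X * adm e Y) d b =
      trace (((e d * X - X * e d) * Y - Y * (e d * X - X * e d)) * (e b)ᴴ) := by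
  have h1 := h.exp _ (hb _ (h.mem d) _ hX)
  rw [Matrix.mul_apply]
  conv_rhs => rw [h1]
  rw [Finset.sum_mul, Finset.mul_sum, ← Finset.sum_sub_distrib, Finset.sum_mul, trace_sum]
  refine Finset.sum_congr rfl fun l _ => ?_
  rw [adm_apply, adm_apply, smul_mul_assoc, mul_smul_comm, ← smul_sub, smul_mul_assoc, trace_smul,
    smul_eq_mul]

theorem adm_lie (h : H166.Onb g e) (hb : ∀ X ∈ g, ∀ Y ∈ g, X * Y - Y * X ∈ g)
    {X Y : Matrix I I ℂ} (hX : X ∈ g) (hY : Y ∈ g) :
    adm e (X * Y - Y * X) = adm e X * adm e Y - adm e Y * adm e X := by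
  ext d b
  rw [Matrix.sub_apply, adm_mul h hb hX, adm_mul h hb hY, adm_apply, ← trace_sub, ← sub_mul]
  congr 2
  noncomm_ring

/-- The representation on the polynomial functions. -/
def rpd (e : Fin k → Matrix I I ℂ) (X : Matrix I I ℂ) :
    Derivation ℂ (MvPolynomial (Fin k) ℂ) (MvPolynomial (Fin k) ℂ) := H166.lvf (adm e X)

theorem rpd_sum {κ : Type} (s : Finset κ) (e : Fin k → Matrix I I ℂ) (c : κ → ℂ)
    (X : κ → Matrix I I ℂ) (f : MvPolynomial (Fin k) ℂ) :
    rpd e (∑ i ∈ s, c i • X i) f = ∑ i ∈ s, c i • rpd e (X i) f := by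
  classical
  have h0 : rpd e 0 f = 0 := by
    have : adm e 0 = 0 := (admL e).map_zero
    rw [rpd, this, H166.lvf_zero]
    rfl
  have hadd : ∀ X Y, rpd e (X + Y) f = rpd e X f + rpd e Y f := by
    intro X Y
    rw [rpd, adm_add, H166.lvf_add]
    rfl
  have hsm : ∀ (a : ℂ) X, rpd e (a • X) f = a • rpd e X f := by
    intro a X
    rw [rpd, adm_smul, H166.lvf_smul]
    rfl
  induction s using Finset.induction_on with
  | empty => rw [Finset.sum_empty, Finset.sum_empty, h0]
  | insert a s ha ih => rw [Finset.sum_insert ha, Finset.sum_insert ha, hadd, hsm, ih]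

theorem rpd_neg (e : Fin k → Matrix I I ℂ) (X : Matrix I I ℂ) (f : MvPolynomial (Fin k) ℂ) :
    rpd e (-X) f = -rpd e X f := by
  have h := rpd_sum (Finset.univ : Finset Unit) e (fun _ => -1) (fun _ => X) f
  simpa using h

theorem rpd_comm (h : H166.Onb g e) (hb : ∀ X ∈ g, ∀ Y ∈ g, X * Y - Y * X ∈ g)
    {X Y : Matrix I I ℂ} (hX : X ∈ g) (hY : Y ∈ g) (f : MvPolynomial (Fin k) ℂ) :
    rpd e X (rpd e Y f) - rpd e Y (rpd e X f) = rpd e (X * Y - Y * X) f := by
  rw [rpd, rpd, rpd, adm_lie h hb hX hY, H166.lvf_lie]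
  rfl

theorem ad_lin (e : Fin k → Matrix I I ℂ) (X : Matrix I I ℂ) (f : MvPolynomial (Fin k) ℂ) :
    aeval (fun _ => (0 : ℂ)) (rpd e X f) = 0 := by
  rw [rpd, H166.lvf_apply, map_sum]
  refine Finset.sum_eq_zero fun i _ => ?_
  rw [map_sum]
  refine Finset.sum_eq_zero fun j _ => ?_
  rw [map_smul, map_mul, aeval_X, zero_mul, smul_zero]

end Adm

section Lf

variable {I : Type} [Fintype I] [DecidableEq I]

open H374

/-- The linear form `M ↦ tr (M B)`. -/
def lf (B : Matrix I I ℂ) : PM I := ∑ i, ∑ j, C (B j i) * X (i, j)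

theorem lf_add (A B : Matrix I I ℂ) : lf (A + B) = lf A + lf B := by
  simp only [lf, Matrix.add_apply, map_add, add_mul, Finset.sum_add_distrib]

theorem lf_smul (c : ℂ) (B : Matrix I I ℂ) : lf (c • B) = C c * lf B := by
  simp only [lf, Matrix.smul_apply, smul_eq_mul, map_mul, mul_assoc, Finset.mul_sum]

theorem lf_zero : lf (0 : Matrix I I ℂ) = 0 := by
  simp [lf]

theorem lf_sum {κ : Type} (s : Finset κ) (c : κ → ℂ) (B : κ → Matrix I I ℂ) :
    lf (∑ i ∈ s, c i • B i) = ∑ i ∈ s, C (c i) * lf (B i) := by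
  classical
  induction s using Finset.induction_on with
  | empty => rw [Finset.sum_empty, Finset.sum_empty, lf_zero]
  | insert a s ha ih => rw [Finset.sum_insert ha, Finset.sum_insert ha, lf_add, lf_smul, ih]

theorem ad_lf (A B : Matrix I I ℂ) : ad A (lf B) = lf (B * A - A * B) := by
  have h1 : ad A (lf B) = ∑ i, ∑ j, ∑ l, (C (B j i * A i l) * X (l, j) - C (B j i * A l j) * X (i, l)) := by
    rw [lf, map_sum]
    refine Finset.sum_congr rfl fun i _ => ?_
    rw [map_sum]
    refine Finset.sum_congr rfl fun j _ => ?_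
    rw [Derivation.leibniz, ← MvPolynomial.algebraMap_eq, Derivation.map_algebraMap, smul_zero,
      add_zero, ad_X, smul_eq_mul, Finset.mul_sum]
    refine Finset.sum_congr rfl fun l _ => ?_
    simp only [MvPolynomial.algebraMap_eq, map_mul]
    ring
  have h2 : ∑ i, ∑ j, ∑ l, (C (B j i * A i l) * X (l, j) : PM I) = ∑ i, ∑ j, C ((B * A) j i) * X (i, j) := by
    simp only [Matrix.mul_apply, map_sum, Finset.sum_mul]
    rw [Finset.sum_comm]
    conv_rhs => rw [Finset.sum_comm]
    refine Finset.sum_congr rfl fun j _ => ?_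
    rw [Finset.sum_comm]
  have h3 : ∑ i, ∑ j, ∑ l, (C (B j i * A l j) * X (i, l) : PM I) = ∑ i, ∑ j, C ((A * B) j i) * X (i, j) := by
    simp only [Matrix.mul_apply, map_sum, Finset.sum_mul]
    refine Finset.sum_congr rfl fun i _ => ?_
    rw [Finset.sum_comm]
    refine Finset.sum_congr rfl fun j _ => Finset.sum_congr rfl fun l _ => ?_
    rw [mul_comm (B l i)]
  rw [h1]
  simp only [Finset.sum_sub_distrib]
  rw [h2, h3, lf]
  simp only [Matrix.sub_apply, map_sub, sub_mul, Finset.sum_sub_distrib]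

theorem lf_single (i j : I) : lf (Matrix.single j i (1 : ℂ)) = X (i, j) := by
  rw [lf, Finset.sum_eq_single i, Finset.sum_eq_single j]
  · simp
  · intro b _ hb
    rw [Matrix.single_apply, if_neg (by simp [Ne.symm hb]), map_zero, zero_mul]
  · intro h; exact absurd (Finset.mem_univ _) h
  · intro b _ hb
    refine Finset.sum_eq_zero fun l _ => ?_
    rw [Matrix.single_apply, if_neg (by simp [Ne.symm hb]), map_zero, zero_mul]
  · intro h; exact absurd (Finset.mem_univ _) h

end Lf

section Res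

variable {I : Type} [Fintype I] [DecidableEq I] {k : ℕ} (S : H374.Dat I)
  {e : Fin k → Matrix I I ℂ}

open H374 H166

/-- The restriction of polynomials to the Lie algebra. -/
def res (e : Fin k → Matrix I I ℂ) : PM I →ₐ[ℂ] MvPolynomial (Fin k) ℂ :=
  aeval fun p => ∑ a, C (e a p.1 p.2) * X a

/-- The extension of polynomials on the Lie algebra. -/
def ext (e : Fin k → Matrix I I ℂ) : MvPolynomial (Fin k) ℂ →ₐ[ℂ] PM I :=
  aeval fun a => lf (e a)ᴴ

theorem res_X (e : Fin k → Matrix I I ℂ) (i j : I) :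
    res e (X (i, j)) = ∑ a, C (e a i j) * X a := aeval_X _ _

theorem ext_X (e : Fin k → Matrix I I ℂ) (a : Fin k) : ext e (X a) = lf (e a)ᴴ := aeval_X _ _

theorem res_lf (e : Fin k → Matrix I I ℂ) (B : Matrix I I ℂ) :
    res e (lf B) = ∑ a, C (trace (e a * B)) * X a := by
  rw [lf, map_sum]
  have h1 : ∀ i, res e (∑ j, C (B j i) * X (i, j)) =
      ∑ a, ∑ j, C (e a i j * B j i) * X a := by
    intro i
    rw [map_sum, Finset.sum_comm]
    refine Finset.sum_congr rfl fun j _ => ?_
    rw [map_mul, res_X, MvPolynomial.algHom_C, MvPolynomial.algebraMap_eq, Finset.mul_sum]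
    refine Finset.sum_congr rfl fun a _ => ?_
    rw [map_mul]; ring
  simp only [h1]
  rw [Finset.sum_comm]
  refine Finset.sum_congr rfl fun a _ => ?_
  rw [trace, map_sum, Finset.sum_mul]
  refine Finset.sum_congr rfl fun i _ => ?_
  rw [diag_apply, Matrix.mul_apply, map_sum, Finset.sum_mul]

variable (h : Onb (lieS S) e)

include h

theorem res_ext (f : MvPolynomial (Fin k) ℂ) : res e (ext e f) = f := by
  have : (res e).comp (ext e) = AlgHom.id ℂ _ := by
    apply MvPolynomial.algHom_ext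
    intro a
    rw [AlgHom.comp_apply, ext_X, res_lf, AlgHom.id_apply, Finset.sum_eq_single a]
    · rw [h.orth, if_pos rfl, map_one, one_mul]
    · intro b _ hb
      rw [h.orth, if_neg hb, map_zero, zero_mul]
    · intro hh; exact absurd (Finset.mem_univ _) hh
  exact AlgHom.congr_fun this f

theorem ext_res (f : PM I) : ext e (res e f) = S.proj f := by
  have : (ext e).comp (res e) = S.proj := by
    apply MvPolynomial.algHom_ext
    rintro ⟨i, j⟩
    rw [AlgHom.comp_apply, res_X, map_sum, S.proj_X]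
    have h1 : (X (i, j) - C (S.e i * S.e j) * X (S.p j, S.p i) : PM I) = lf (S.root j i) := by
      rw [Dat.root, lf_add, lf_smul, lf_single, lf_single, map_neg, neg_mul, ← sub_eq_add_neg,
        mul_comm (S.e j)]
    have h2 := h.exp' lieS_conjTranspose (X := S.root j i) (S.mem_root j i)
    have h3 : ∀ a, trace (S.root j i * e a) = 2 * e a i j := by
      intro a
      have h4 : trace (Matrix.single j i (1 : ℂ) * e a) = e a i j := by
        rw [Matrix.trace_single_mul]; simp
      have h5 : trace (Matrix.single (S.p i) (S.p j) (1 : ℂ) * e a) = e a (S.p j) (S.p i) := by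
        rw [Matrix.trace_single_mul]; simp
      rw [Dat.root, add_mul, trace_add, smul_mul_assoc, trace_smul, h4, h5, smul_eq_mul]
      have h6 : e a i j = -(S.e i * S.e j) * e a (S.p j) (S.p i) := h.mem a i j
      linear_combination (-1 : ℂ) * h6
    rw [h1, h2, lf_sum, Finset.mul_sum]
    refine Finset.sum_congr rfl fun a _ => ?_
    rw [map_mul, ext_X, MvPolynomial.algHom_C, MvPolynomial.algebraMap_eq, h3, ← mul_assoc, ← C_mul]
    congr 2
    ring
  exact AlgHom.congr_fun this f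

theorem proj_ext (f : MvPolynomial (Fin k) ℂ) : S.proj (ext e f) = ext e f := by
  rw [← ext_res S h, res_ext S h]

theorem ext_inj : Function.Injective (ext e) := fun f f' hf => by
  rw [← res_ext S h f, hf, res_ext S h]

theorem ad_ext {A : Matrix I I ℂ} (hA : A ∈ lieS S) (f : MvPolynomial (Fin k) ℂ) :
    ad A (ext e f) = -ext e (rpd e A f) := by
  induction f using MvPolynomial.induction_on with
  | C a =>
    rw [← MvPolynomial.algebraMap_eq, AlgHom.commutes, Derivation.map_algebraMap,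
      Derivation.map_algebraMap, map_zero, neg_zero]
  | add p q hp hq => rw [map_add, map_add, hp, hq, map_add, map_add, neg_add]
  | mul_X p i hp =>
    have hX : ad A (ext e (X i)) = -ext e (rpd e A (X i)) := by
      rw [ext_X, ad_lf, rpd, lvf_X, map_sum]
      have hm : (e i)ᴴ * A - A * (e i)ᴴ ∈ lieS S :=
        lieS_lie _ (lieS_conjTranspose _ (h.mem i)) _ hA
      rw [h.exp' lieS_conjTranspose hm, lf_sum, ← Finset.sum_neg_distrib]
      refine Finset.sum_congr rfl fun d _ => ?_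
      rw [map_smul, ext_X, Algebra.smul_def, MvPolynomial.algebraMap_eq, ← neg_mul, ← map_neg]
      congr 2
      rw [adm_apply, sub_mul, sub_mul, trace_sub, trace_sub, neg_sub]
      congr 1
      · rw [mul_assoc, trace_mul_comm, mul_assoc]
      · rw [mul_assoc, trace_mul_comm, mul_assoc, trace_mul_comm, mul_assoc]
    rw [map_mul, Derivation.leibniz, hp, hX, Derivation.leibniz]
    simp only [smul_eq_mul, map_add, map_mul]
    ring

theorem rpd_eq_zero_of_cas {f : MvPolynomial (Fin k) ℂ}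
    (hf : casP (fun a => adm e (e a)) f = 0) {A : Matrix I I ℂ} (hA : A ∈ lieS S) :
    rpd e A f = 0 := by
  rw [h.exp' lieS_conjTranspose hA, rpd_sum]
  refine Finset.sum_eq_zero fun a _ => ?_
  have := lvf_eq_zero_of_casP _ hf a
  rw [adm_conjTranspose] at this
  rw [rpd, this, smul_zero]

/-- The invariant polynomials. -/
def yS (e : Fin k → Matrix I I ℂ) (n : ℕ) : Py n →ₐ[ℂ] MvPolynomial (Fin k) ℂ :=
  (res e).comp (aeval (H42.ys S n))

omit h in
theorem yS_apply (n : ℕ) (P : Py n) : yS S e n P = res e (aeval (H42.ys S n) P) := rfl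

theorem ext_yS (n : ℕ) (P : Py n) : ext e (yS S e n P) = aeval (H42.ys S n) P := by
  rw [yS_apply, ext_res S h, H42.proj_aeval]

theorem yS_inj {n : ℕ} (hai : AlgebraicIndependent ℂ (H42.ys S n)) :
    Function.Injective (yS S e n) := by
  intro P Q hPQ
  have h1 := congrArg (ext e) hPQ
  rw [ext_yS S h, ext_yS S h] at h1
  exact hai h1

theorem rpd_yS {n : ℕ} {A : Matrix I I ℂ} (hA : A ∈ lieS S) (P : Py n) :
    rpd e A (yS S e n P) = 0 := by
  apply ext_inj S h
  have h1 := ad_ext S h hA (yS S e n P)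
  rw [ext_yS S h, H42.ad_aeval S A hA] at h1
  rw [map_zero, ← neg_eq_zero, ← h1]

theorem exists_yS {n : ℕ} (hex : ∀ F : PM I, S.proj F = F → (∀ A, S.Mem A → ad A F = 0) →
    ∃ P : MvPolynomial (Fin n) ℂ, F = aeval (H42.ys S n) P) {f : MvPolynomial (Fin k) ℂ}
    (hf : casP (fun a => adm e (e a)) f = 0) : ∃ P, yS S e n P = f := by
  obtain ⟨P, hP⟩ := hex (ext e f) (proj_ext S h f) (fun A hA => by
    rw [ad_ext S h hA, rpd_eq_zero_of_cas S h hf hA, map_zero, neg_zero])
  refine ⟨P, ?_⟩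
  rw [yS_apply, ← hP, res_ext S h]

omit h in
theorem ag_yS {n : ℕ} (hn : 2 * n ≤ Fintype.card I) (i : Fin n) :
    aeval (fun _ => (0 : ℂ)) (yS S e n (X i)) = 0 := by
  have h1 : ∀ f : PM I, (aeval (fun _ => (0 : ℂ)) : MvPolynomial (Fin k) ℂ →ₐ[ℂ] ℂ) (res e f) =
      (aeval (fun _ => (0 : ℂ)) : PM I →ₐ[ℂ] ℂ) f := by
    intro f
    have : (aeval (fun _ => (0 : ℂ)) : MvPolynomial (Fin k) ℂ →ₐ[ℂ] ℂ).comp (res e) =
        (aeval (fun _ => (0 : ℂ)) : PM I →ₐ[ℂ] ℂ) := by
      apply MvPolynomial.algHom_ext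
      rintro ⟨i, j⟩
      rw [AlgHom.comp_apply, res_X, map_sum, aeval_X]
      refine Finset.sum_eq_zero fun a _ => ?_
      rw [map_mul, aeval_X, mul_zero]
    exact AlgHom.congr_fun this f
  have h2 : ∀ f : PM I, (aeval (fun _ => (0 : ℂ)) : PM I →ₐ[ℂ] ℂ) (S.proj f) =
      (aeval (fun _ => (0 : ℂ)) : PM I →ₐ[ℂ] ℂ) f := by
    intro f
    have : (aeval (fun _ => (0 : ℂ)) : PM I →ₐ[ℂ] ℂ).comp S.proj =
        (aeval (fun _ => (0 : ℂ)) : PM I →ₐ[ℂ] ℂ) := by
      apply MvPolynomial.algHom_ext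
      rintro ⟨i, j⟩
      rw [AlgHom.comp_apply, S.proj_X, aeval_X, map_mul, map_sub, map_mul, aeval_X, aeval_X,
        mul_zero, sub_zero, mul_zero]
    exact AlgHom.congr_fun this f
  rw [yS_apply, aeval_X, h1, H42.ys, h2, H42.chc]
  have h3 : (aeval (fun _ => (0 : ℂ)) : PM I →ₐ[ℂ] ℂ)
      ((mvPolynomialX I I ℂ).charpoly.coeff (Fintype.card I - 2 * (i + 1))) =
      ((mvPolynomialX I I ℂ).map ((aeval (fun _ => (0 : ℂ)) : PM I →ₐ[ℂ] ℂ) : PM I →+* ℂ)).charpoly.coeff
        (Fintype.card I - 2 * (i + 1)) := by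
    rw [Matrix.charpoly_map, Polynomial.coeff_map]
    rfl
  have h4 : (mvPolynomialX I I ℂ).map ((aeval (fun _ => (0 : ℂ)) : PM I →ₐ[ℂ] ℂ) : PM I →+* ℂ) = 0 := by
    ext a b
    rw [Matrix.map_apply, mvPolynomialX_apply]
    exact aeval_X _ _
  rw [h3, h4, Matrix.charpoly_zero, Polynomial.coeff_X_pow, if_neg]
  have := i.2
  omega

/-- **The data of the Koszul complex of a classical Lie algebra.** -/
def lieSD {n : ℕ} (hn : 2 * n ≤ Fintype.card I)
    (hex : ∀ F : PM I, S.proj F = F → (∀ A, S.Mem A → ad A F = 0) →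
      ∃ P : MvPolynomial (Fin n) ℂ, F = aeval (H42.ys S n) P)
    (hai : AlgebraicIndependent ℂ (H42.ys S n)) :
    SD (stc e) n (MvPolynomial (Fin k) ℂ) where
  r a := rpd e (e a)
  r' a := rpd e (e a)ᴴ
  F a := X a
  y := yS S e n
  ag := aeval fun _ => 0
  rr a b := by
    refine LinearMap.ext fun f => ?_
    change rpd e (e a) (rpd e (e b) f) - rpd e (e b) (rpd e (e a) f) = _
    rw [rpd_comm h lieS_lie (h.mem a) (h.mem b), h.bracket lieS_lie, rpd_sum, LinearMap.sum_apply]
    rfl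
  rr' b a := by
    refine LinearMap.ext fun f => ?_
    change rpd e (e b) (rpd e (e a)ᴴ f) - rpd e (e a)ᴴ (rpd e (e b) f) = _
    rw [rpd_comm h lieS_lie (h.mem b) (lieS_conjTranspose _ (h.mem a)),
      h.bracket' lieS_lie lieS_conjTranspose, rpd_neg, rpd_sum, LinearMap.neg_apply,
      LinearMap.sum_apply]
    rfl
  anti := stc_anti
  unim := h.unim lieS_conjTranspose
  P := by
    have hc : (∑ a, dop (rpd e (e a)) * dop (rpd e (e a)ᴴ)) = casP (fun a => adm e (e a)) := by
      refine LinearMap.ext fun f => ?_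
      rw [casP_apply, LinearMap.sum_apply]
      refine Finset.sum_congr rfl fun a _ => ?_
      rw [adm_conjTranspose]
      rfl
    rw [hc]
    intro f
    obtain ⟨q, r, hq, hf⟩ := ok_casP (fun a => adm e (e a)) f
    refine ⟨q, ?_, hf⟩
    have := congrArg (Polynomial.eval 0) hq
    rw [Polynomial.eval_add, Polynomial.eval_mul, Polynomial.eval_X, zero_mul, add_zero,
      Polynomial.eval_one] at this
    rw [← this]
    exact one_ne_zero
  ker x hx := by
    have hc : (∑ a, dop (rpd e (e a)) * dop (rpd e (e a)ᴴ)) = casP (fun a => adm e (e a)) := by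
      refine LinearMap.ext fun f => ?_
      rw [casP_apply, LinearMap.sum_apply]
      refine Finset.sum_congr rfl fun a _ => ?_
      rw [adm_conjTranspose]
      rfl
    rw [hc] at hx
    exact exists_yS S h hex hx
  ry a p := rpd_yS S h (h.mem a) p
  r'y a p := rpd_yS S h (lieS_conjTranspose _ (h.mem a)) p
  inj := yS_inj S h hai
  agr a x := ad_lin e _ x
  agr' a x := ad_lin e _ x
  agy := ag_yS S hn
  agF a := aeval_X _ _

end Res

/-- The data for `sp`. -/
def spSD (n : ℕ) {k : ℕ} {e : Fin k → Matrix (Fin n ⊕ Fin n) (Fin n ⊕ Fin n) ℂ}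
    (h : H166.Onb (H166.lieS (H374.Dat.sp n)) e) :
    SD (H166.stc e) n (MvPolynomial (Fin k) ℂ) :=
  lieSD (H374.Dat.sp n) h (by simp [two_mul]) (H42.sp_exists n) (H42.sp_algInd n)

/-- The data for odd `so`. -/
def soSD (n : ℕ) {k : ℕ} {e : Fin k → Matrix ((Fin n ⊕ Fin n) ⊕ Unit) ((Fin n ⊕ Fin n) ⊕ Unit) ℂ}
    (h : H166.Onb (H166.lieS (H374.Dat.so n)) e) :
    SD (H166.stc e) n (MvPolynomial (Fin k) ℂ) :=
  lieSD (H374.Dat.so n) h (by simp [two_mul]) (H42.so_exists n) (H42.so_algInd n)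

end

end Vale.Agent.P286.H341
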