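import Vale.Agent.P286.H341.Ext
import Vale.Agent.P286.H166.Cas1

/-!
# The Koszul complex of the Weil algebra: the operator theorem
-/

namespace Vale.Agent.P286.H341

open TensorProduct
open Vale.Agent.P286.H166

noncomputable section

set_option linter.unusedSectionVars false

variable {α : Type} [Fintype α] [DecidableEq α] {M : Type} [AddCommGroup M] [Module ℂ M]

/-- The space `Λ ⊗ M`. -/
def KV (α M : Type) [AddCommGroup M] [Module ℂ M] : Type := Ex α ⊗[ℂ] M

instance : AddCommGroup (KV α M) := inferInstanceAs (AddCommGroup (Ex α ⊗[ℂ] M))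

instance : Module ℂ (KV α M) := inferInstanceAs (Module ℂ (Ex α ⊗[ℂ] M))

/-- The element `x ⊗ m`. -/
def tt (x : Ex α) (m : M) : KV α M := (x ⊗ₜ[ℂ] m : Ex α ⊗[ℂ] M)

/-- The operator `S ⊗ T`. -/
def tm (S : Module.End ℂ (Ex α)) (T : Module.End ℂ M) : Module.End ℂ (KV α M) :=
  TensorProduct.map S T

theorem tm_tt (S : Module.End ℂ (Ex α)) (T : Module.End ℂ M) (x : Ex α) (m : M) :
    tm S T (tt x m) = tt (S x) (T m) := TensorProduct.map_tmul _ _ _ _

theorem KV.ind {p : KV α M → Prop} (h0 : p 0) (h : ∀ x m, p (tt x m))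
    (ha : ∀ v w, p v → p w → p (v + w)) (v : KV α M) : p v :=
  TensorProduct.induction_on v h0 h ha

theorem tm_mul (S S' : Module.End ℂ (Ex α)) (T T' : Module.End ℂ M) :
    tm S T * tm S' T' = tm (S * S') (T * T') := (TensorProduct.map_mul _ _ _ _).symm

theorem tm_one_one : tm (1 : Module.End ℂ (Ex α)) (1 : Module.End ℂ M) = 1 :=
  TensorProduct.map_one

theorem tm_zero (S : Module.End ℂ (Ex α)) : tm S (0 : Module.End ℂ M) = 0 :=
  TensorProduct.map_zero_right _

theorem tm_zero' (T : Module.End ℂ M) : tm (0 : Module.End ℂ (Ex α)) T = 0 :=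
  TensorProduct.map_zero_left _

theorem tm_add (S : Module.End ℂ (Ex α)) (T T' : Module.End ℂ M) :
    tm S (T + T') = tm S T + tm S T' := TensorProduct.map_add_right _ _ _

theorem tm_add' (S S' : Module.End ℂ (Ex α)) (T : Module.End ℂ M) :
    tm (S + S') T = tm S T + tm S' T := TensorProduct.map_add_left _ _ _

theorem tm_neg' (S : Module.End ℂ (Ex α)) (T : Module.End ℂ M) : tm (-S) T = -tm S T := by
  rw [eq_neg_iff_add_eq_zero, ← tm_add', neg_add_cancel, tm_zero']

theorem tm_neg (S : Module.End ℂ (Ex α)) (T : Module.End ℂ M) : tm S (-T) = -tm S T := by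
  rw [eq_neg_iff_add_eq_zero, ← tm_add, neg_add_cancel, tm_zero]

theorem tm_sub (S : Module.End ℂ (Ex α)) (T T' : Module.End ℂ M) :
    tm S (T - T') = tm S T - tm S T' := by
  rw [sub_eq_add_neg, tm_add, tm_neg, ← sub_eq_add_neg]

theorem tm_smul (S : Module.End ℂ (Ex α)) (a : ℂ) (T : Module.End ℂ M) :
    tm S (a • T) = a • tm S T := TensorProduct.map_smul_right _ _ _

theorem tm_sum {κ : Type} (s : Finset κ) (S : Module.End ℂ (Ex α)) (T : κ → Module.End ℂ M) :
    tm S (∑ i ∈ s, T i) = ∑ i ∈ s, tm S (T i) := by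
  classical
  induction s using Finset.induction_on with
  | empty => rw [Finset.sum_empty, Finset.sum_empty, tm_zero]
  | insert a s ha ih => rw [Finset.sum_insert ha, Finset.sum_insert ha, tm_add, ih]

/-- The Casimir operator is central. -/
theorem cas_central {R : Type*} [Ring R] [Algebra ℂ R] {c : α → α → α → ℂ} {rho rh : α → R}
    (h1 : ∀ a b, rho a * rho b - rho b * rho a = ∑ k, c a b k • rho k)
    (h2 : ∀ b a, rho b * rh a - rh a * rho b = -∑ k, c b k a • rh k) (a : α) :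
    rho a * (∑ b, rho b * rh b) = (∑ b, rho b * rh b) * rho a := by
  have h3 : ∀ b, rho a * (rho b * rh b) = rho b * rh b * rho a +
      ((∑ k, c a b k • (rho k * rh b)) - ∑ k, c a k b • (rho b * rh k)) := by
    intro b
    have e1 := h1 a b
    have e2 := h2 a b
    rw [sub_eq_iff_eq_add] at e1 e2
    rw [← mul_assoc, e1, add_mul, mul_assoc (rho b), e2, mul_add, Finset.sum_mul, mul_neg,
      Finset.mul_sum]
    simp only [smul_mul_assoc, mul_smul_comm, mul_assoc]
    abel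
  rw [Finset.mul_sum, Finset.sum_mul]
  simp only [h3]
  rw [Finset.sum_add_distrib, Finset.sum_sub_distrib]
  have h4 : ∑ x, ∑ k, c a x k • (rho k * rh x) = ∑ x, ∑ k, c a k x • (rho x * rh k) :=
    Finset.sum_comm
  rw [h4, sub_self, add_zero]

/-- The operators on the coefficients. -/
structure KD (c : α → α → α → ℂ) (M : Type) [AddCommGroup M] [Module ℂ M] where
  /-- the representation of the basis -/
  rho : α → Module.End ℂ M
  /-- the representation of the dual basis -/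
  rh : α → Module.End ℂ M
  /-- multiplication by the coordinates of the curvature -/
  F : α → Module.End ℂ M
  /-- the Koszul differential -/
  dl : Module.End ℂ M
  /-- the contraction of the invariants -/
  sg : Module.End ℂ M
  /-- the augmentation -/
  pj : Module.End ℂ M
  /-- the Green operator of the Casimir operator -/
  gr : Green (∑ a, rho a * rh a)
  rho_rho : ∀ a b, rho a * rho b - rho b * rho a = ∑ k, c a b k • rho k
  rho_rh : ∀ b a, rho b * rh a - rh a * rho b = -∑ k, c b k a • rh k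
  anti : ∀ a b k, c a b k = -c b a k
  unim : ∀ k, ∑ b, c b k b = 0
  dl_rho : ∀ a, dl * rho a = rho a * dl
  dl_rh : ∀ a, dl * rh a = rh a * dl
  sg_rho : ∀ a, sg * rho a = 0
  rho_sg : ∀ a, rho a * sg = 0
  dl_sg : dl * sg + sg * dl = gr.P - pj
  pj_rho : ∀ a, pj * rho a = 0
  pj_rh : ∀ a, pj * rh a = 0
  pj_sg : pj * sg = 0
  pj_F : ∀ a, pj * F a = 0
  pj_dl : pj * dl = 0

namespace KD

variable {c : α → α → α → ℂ} (K : KD c M)

/-- The operators of the Casimir relations. -/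
theorem rel : CasRel c (fun a => tm (Ex.th a) (1 : Module.End ℂ M)) (fun a => tm (Ex.io a) 1)
    (fun a => tm 1 (K.rho a)) (fun a => tm 1 (K.rh a)) where
  th_th a b := by
    rw [tm_mul, tm_mul, Ex.th_th, tm_neg']
  io_io a b := by
    rw [tm_mul, tm_mul, Ex.io_io, tm_neg']
  io_th a b := by
    rw [tm_mul, tm_mul, ← tm_add', Ex.io_th]
    split_ifs
    · rw [mul_one, tm_one_one]
    · rw [tm_zero']
  rho_th a b := by rw [tm_mul, tm_mul, one_mul, mul_one, one_mul, mul_one]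
  rho_io a b := by rw [tm_mul, tm_mul, one_mul, mul_one, one_mul, mul_one]
  rh_th a b := by rw [tm_mul, tm_mul, one_mul, mul_one, one_mul, mul_one]
  rh_io a b := by rw [tm_mul, tm_mul, one_mul, mul_one, one_mul, mul_one]
  rho_rho a b := by
    rw [tm_mul, tm_mul, ← tm_sub, K.rho_rho, tm_sum]
    simp only [tm_smul, one_mul]
  rho_rh a b := by
    rw [tm_mul, tm_mul, ← tm_sub, K.rho_rh, tm_neg, tm_sum]
    simp only [tm_smul, one_mul]
  anti := K.anti
  unim := K.unim

/-- The Chevalley–Eilenberg part. -/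
def dce : Module.End ℂ (KV α M) :=
  ceD c (fun a => tm (Ex.th a) 1) (fun a => tm (Ex.io a) 1) (fun a => tm 1 (K.rho a))

/-- The Koszul part. -/
def ddl : Module.End ℂ (KV α M) := tm Ex.ep K.dl

/-- The curvature part. -/
def dF : Module.End ℂ (KV α M) := ∑ a, tm (Ex.io a) (K.F a)

/-- The differential. -/
def D : Module.End ℂ (KV α M) := K.dce + K.ddl + K.dF

/-- The Casimir homotopy. -/
def hh : Module.End ℂ (KV α M) := ∑ a, tm (Ex.io a) (K.rh a * K.gr.G)

/-- The contraction. -/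
def s : Module.End ℂ (KV α M) := K.hh + tm Ex.ep K.sg

/-- The projection. -/
def pi : Module.End ℂ (KV α M) := tm 1 K.pj

theorem dce_eq : K.dce = ∑ a, tm (Ex.th a) (K.rho a) -
    tm ((1 / 2 : ℂ) • ∑ a, ∑ b, ∑ k, c a b k • (Ex.th a * Ex.th b * Ex.io k)) 1 := by
  have h1 : ∀ (s : ℂ) (S : Module.End ℂ (Ex α)), tm (s • S) (1 : Module.End ℂ M) = s • tm S 1 :=
    fun s S => TensorProduct.map_smul_left _ _ _
  have h2 : ∀ (f : α → Module.End ℂ (Ex α)),
      tm (∑ a, f a) (1 : Module.End ℂ M) = ∑ a, tm (f a) 1 := by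
    intro f
    have : ∀ s : Finset α, tm (∑ a ∈ s, f a) (1 : Module.End ℂ M) = ∑ a ∈ s, tm (f a) 1 := by
      intro s
      induction s using Finset.induction_on with
      | empty => rw [Finset.sum_empty, Finset.sum_empty, tm_zero']
      | insert a s ha ih => rw [Finset.sum_insert ha, Finset.sum_insert ha, tm_add', ih]
    exact this _
  rw [dce, ceD]
  simp only [h1, h2, tm_mul, one_mul, mul_one]

theorem casG : K.dce * K.hh + K.hh * K.dce = 1 - tm 1 K.gr.P := by
  have h1 : K.hh = casH (fun a => tm (Ex.io a) 1) (fun a => tm 1 (K.rh a)) * tm 1 K.gr.G := by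
    rw [hh, casH, Finset.sum_mul]
    refine Finset.sum_congr rfl fun a _ => ?_
    rw [tm_mul, tm_mul, mul_one, one_mul, mul_one]
  have hC := cas_central K.rho_rho K.rho_rh
  have hG : ∀ a, K.rho a * K.gr.G = K.gr.G * K.rho a := by
    intro a
    refine LinearMap.ext fun v => ?_
    exact K.gr.map_G K.gr (T := K.rho a) (fun v => LinearMap.congr_fun (hC a) v) v
  have h2 : K.dce * tm 1 K.gr.G = tm 1 K.gr.G * K.dce := by
    rw [dce_eq, sub_mul, mul_sub, Finset.sum_mul, Finset.mul_sum, tm_mul, tm_mul]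
    simp only [tm_mul, hG, one_mul, mul_one]
  have h3 := K.rel.homotopy
  have h4 : cas (fun a => tm (1 : Module.End ℂ (Ex α)) (K.rho a)) (fun a => tm 1 (K.rh a)) =
      tm 1 (∑ a, K.rho a * K.rh a) := by
    rw [cas, tm_sum]
    exact Finset.sum_congr rfl fun a _ => by rw [tm_mul, one_mul]
  rw [h1, ← mul_assoc, mul_assoc _ (tm 1 K.gr.G), ← h2, ← mul_assoc, ← add_mul]
  rw [show K.dce = ceD c (fun a => tm (Ex.th a) 1) (fun a => tm (Ex.io a) 1)
    (fun a => tm 1 (K.rho a)) from rfl, h3, h4, tm_mul, one_mul]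
  rw [eq_sub_iff_add_eq, ← tm_add]
  have h5 : (∑ a, K.rho a * K.rh a) * K.gr.G + K.gr.P = 1 := by
    refine LinearMap.ext fun v => ?_
    have := K.gr.add v
    rw [add_comm] at this
    exact this
  rw [h5, tm_one_one]

theorem dlG : K.dl * K.gr.G = K.gr.G * K.dl := by
  have h : K.dl * (∑ b, K.rho b * K.rh b) = (∑ b, K.rho b * K.rh b) * K.dl := by
    rw [Finset.mul_sum, Finset.sum_mul]
    refine Finset.sum_congr rfl fun a _ => ?_
    rw [← mul_assoc, K.dl_rho, mul_assoc, K.dl_rh, ← mul_assoc]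
  refine LinearMap.ext fun v => ?_
  exact K.gr.map_G K.gr (T := K.dl) (fun v => LinearMap.congr_fun h v) v

theorem ddl_hh : K.ddl * K.hh + K.hh * K.ddl = 0 := by
  rw [ddl, hh, Finset.mul_sum, Finset.sum_mul, ← Finset.sum_add_distrib]
  refine Finset.sum_eq_zero fun a _ => ?_
  rw [tm_mul, tm_mul, Ex.ep_io, tm_neg', mul_assoc, ← K.dlG, ← mul_assoc (K.rh a), ← K.dl_rh,
    mul_assoc, neg_add_cancel]

theorem dce_sg : K.dce * tm Ex.ep K.sg + tm Ex.ep K.sg * K.dce = 0 := by
  have h1 : ∀ a b k, Ex.ep * (Ex.th a * Ex.th b * Ex.io k) =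
      -(Ex.th a * Ex.th b * Ex.io k * (Ex.ep : Module.End ℂ (Ex α))) := by
    intro a b k
    have e1 : ∀ (a : α) (x : Ex α), Ex.ep (Ex.th a x) = -(Ex.th a (Ex.ep x)) := fun a x =>
      LinearMap.congr_fun (Ex.ep_th a) x
    have e2 : ∀ (a : α) (x : Ex α), Ex.ep (Ex.io a x) = -(Ex.io a (Ex.ep x)) := fun a x =>
      LinearMap.congr_fun (Ex.ep_io a) x
    refine LinearMap.ext fun x => ?_
    change Ex.ep (Ex.th a (Ex.th b (Ex.io k x))) = -(Ex.th a (Ex.th b (Ex.io k (Ex.ep x))))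
    rw [e1, e1, e2, map_neg, map_neg, map_neg, neg_neg]
  rw [dce_eq, sub_mul, mul_sub, Finset.sum_mul, Finset.mul_sum]
  simp only [tm_mul, K.rho_sg, K.sg_rho, tm_zero, Finset.sum_const_zero, mul_one, one_mul]
  rw [zero_sub, zero_sub, ← neg_add, ← tm_add', neg_eq_zero, smul_mul_assoc, mul_smul_comm,
    ← smul_add]
  have h2 : (∑ a, ∑ b, ∑ k, c a b k • (Ex.th a * Ex.th b * Ex.io k)) * (Ex.ep : Module.End ℂ (Ex α)) +
      Ex.ep * (∑ a, ∑ b, ∑ k, c a b k • (Ex.th a * Ex.th b * Ex.io k)) = 0 := by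
    simp only [Finset.sum_mul, Finset.mul_sum, smul_mul_assoc, mul_smul_comm, h1, smul_neg,
      Finset.sum_neg_distrib]
    rw [add_neg_cancel]
  rw [h2, smul_zero, tm_zero']

theorem ddl_sg : K.ddl * tm Ex.ep K.sg + tm Ex.ep K.sg * K.ddl = tm 1 K.gr.P - K.pi := by
  rw [ddl, tm_mul, tm_mul, ← tm_add, K.dl_sg, Ex.ep_sq, tm_sub]
  rfl

/-- The contraction of the leading part. -/
theorem homotopy : (K.dce + K.ddl) * K.s + K.s * (K.dce + K.ddl) = 1 - K.pi := by
  have h1 := K.casG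
  have h2 := K.ddl_hh
  have h3 := K.dce_sg
  have h4 := K.ddl_sg
  rw [s]
  calc (K.dce + K.ddl) * (K.hh + tm Ex.ep K.sg) + (K.hh + tm Ex.ep K.sg) * (K.dce + K.ddl) =
      (K.dce * K.hh + K.hh * K.dce) + (K.ddl * K.hh + K.hh * K.ddl) +
      (K.dce * tm Ex.ep K.sg + tm Ex.ep K.sg * K.dce) +
      (K.ddl * tm Ex.ep K.sg + tm Ex.ep K.sg * K.ddl) := by noncomm_ring
    _ = _ := by rw [h1, h2, h3, h4]; abel

/-- The perturbation. -/
def N : Module.End ℂ (KV α M) := K.dF * K.s + K.s * K.dF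

theorem homotopy_D (v : KV α M) : K.D (K.s v) + K.s (K.D v) = v - K.pi v + K.N v := by
  have h : K.D * K.s + K.s * K.D = 1 - K.pi + K.N := by
    rw [← K.homotopy, D, N]
    noncomm_ring
  exact LinearMap.congr_fun h v

/-- The filtration. -/
def fil (k : ℕ) : Submodule ℂ (KV α M) :=
  Submodule.span ℂ {v | ∃ x ∈ Ex.fl (α := α) k, ∃ m : M, v = tt x m}

theorem tt_zero (m : M) : tt (0 : Ex α) m = 0 := TensorProduct.zero_tmul _ _

theorem tt_add (x y : Ex α) (m : M) : tt (x + y) m = tt x m + tt y m := TensorProduct.add_tmul _ _ _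

theorem tt_mem {k : ℕ} {x : Ex α} (h : x ∈ Ex.fl (α := α) k) (m : M) :
    tt x m ∈ fil (α := α) (M := M) k := Submodule.subset_span ⟨x, h, m, rfl⟩

theorem fil_zero : fil (α := α) (M := M) 0 = ⊥ := by
  rw [fil, Submodule.span_eq_bot]
  rintro v ⟨x, hx, m, rfl⟩
  rw [(Submodule.mem_bot ℂ).1 hx, tt_zero]

theorem fil_le {j k : ℕ} (h : j ≤ k) : fil (α := α) (M := M) j ≤ fil k := by
  refine Submodule.span_le.2 ?_
  rintro v ⟨x, hx, m, rfl⟩
  exact tt_mem (Ex.fl_le h hx) m

theorem exists_fil (v : KV α M) : ∃ k, v ∈ fil (α := α) (M := M) k := by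
  induction v using KV.ind with
  | h0 => exact ⟨0, Submodule.zero_mem _⟩
  | h x m =>
    obtain ⟨k, hk⟩ := Ex.exists_fl x
    exact ⟨k, tt_mem hk m⟩
  | ha v w hv hw =>
    obtain ⟨k, hk⟩ := hv
    obtain ⟨l, hl⟩ := hw
    exact ⟨max k l, Submodule.add_mem _ (fil_le (le_max_left _ _) hk) (fil_le (le_max_right _ _) hl)⟩

theorem map_fil {T : Module.End ℂ (KV α M)} {j k : ℕ}
    (h : ∀ x ∈ Ex.fl (α := α) j, ∀ m : M, T (tt x m) ∈ fil (α := α) (M := M) k) :
    ∀ v ∈ fil (α := α) (M := M) j, T v ∈ fil (α := α) (M := M) k := by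
  intro v hv
  have : fil (α := α) (M := M) j ≤ (fil (α := α) (M := M) k).comap T := by
    refine Submodule.span_le.2 ?_
    rintro v ⟨x, hx, m, rfl⟩
    exact h x hx m
  exact this hv

theorem dF_fil (k : ℕ) : ∀ v ∈ fil (α := α) (M := M) (k + 1), K.dF v ∈ fil (α := α) (M := M) k := by
  refine map_fil fun x hx m => ?_
  rw [dF, LinearMap.sum_apply]
  refine Submodule.sum_mem _ fun a _ => ?_
  rw [tm_tt]
  exact tt_mem (Ex.io_mem_fl a k x hx) _

theorem hh_fil (k : ℕ) : ∀ v ∈ fil (α := α) (M := M) (k + 1), K.hh v ∈ fil (α := α) (M := M) k := by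
  refine map_fil fun x hx m => ?_
  rw [hh, LinearMap.sum_apply]
  refine Submodule.sum_mem _ fun a _ => ?_
  rw [tm_tt]
  exact tt_mem (Ex.io_mem_fl a k x hx) _

theorem s_fil (k : ℕ) : ∀ v ∈ fil (α := α) (M := M) k, K.s v ∈ fil (α := α) (M := M) k := by
  intro v hv
  rw [s, LinearMap.add_apply]
  refine Submodule.add_mem _ ?_ ?_
  · rcases k with _ | k
    · rw [fil_zero] at hv ⊢
      rw [(Submodule.mem_bot ℂ).1 hv, map_zero]
      exact Submodule.zero_mem _
    · exact fil_le (Nat.le_succ k) (K.hh_fil k v hv)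
  · revert v
    refine map_fil fun x hx m => ?_
    rw [tm_tt]
    exact tt_mem (Ex.ep_mem_fl k x hx) _

theorem N_fil (k : ℕ) : ∀ v ∈ fil (α := α) (M := M) (k + 1), K.N v ∈ fil (α := α) (M := M) k := by
  intro v hv
  rw [N, LinearMap.add_apply]
  exact Submodule.add_mem _ (K.dF_fil k _ (K.s_fil _ v hv)) (K.s_fil _ _ (K.dF_fil k v hv))

theorem N_pow (k : ℕ) : ∀ v ∈ fil (α := α) (M := M) k, (K.N ^ k) v = 0 := by
  induction k with
  | zero =>
    intro v hv
    rw [fil_zero] at hv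
    rw [(Submodule.mem_bot ℂ).1 hv, map_zero]
  | succ k ih =>
    intro v hv
    rw [pow_succ, Module.End.mul_apply]
    exact ih _ (K.N_fil k v hv)

theorem pi_s (v : KV α M) : K.pi (K.s v) = 0 := by
  have h : K.pi * K.s = 0 := by
    rw [pi, s, hh, mul_add, Finset.mul_sum]
    simp only [tm_mul, ← mul_assoc, K.pj_rh, K.pj_sg, zero_mul, tm_zero, Finset.sum_const_zero,
      add_zero]
  exact LinearMap.congr_fun h v

theorem pi_D {v : KV α M} (hv : K.pi v = 0) : K.pi (K.D v) = 0 := by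
  have h : K.pi * K.D = -(tm ((1 / 2 : ℂ) • ∑ a, ∑ b, ∑ k, c a b k • (Ex.th a * Ex.th b * Ex.io k)) 1 *
      K.pi) := by
    rw [D, dce_eq, pi, ddl, dF, mul_add, mul_add, mul_sub, Finset.mul_sum, Finset.mul_sum]
    simp only [tm_mul, K.pj_rho, K.pj_dl, K.pj_F, tm_zero, Finset.sum_const_zero, add_zero, one_mul,
      mul_one, zero_sub]
  have h2 := LinearMap.congr_fun h v
  rw [Module.End.mul_apply, LinearMap.neg_apply, Module.End.mul_apply, hv, map_zero, neg_zero] at h2
  exact h2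

/-- **The kernel of the augmentation is exact.** -/
theorem exact (hD : ∀ v, K.D (K.D v) = 0) (g : ℤ → Submodule ℂ (KV α M))
    (hDg : ∀ p, ∀ v ∈ g p, K.D v ∈ g (p + 1)) (hsg : ∀ p, ∀ v ∈ g (p + 1), K.s v ∈ g p) (p : ℤ)
    (v : KV α M) (hv : v ∈ g (p + 1)) (hpi : K.pi v = 0) (hDv : K.D v = 0) :
    ∃ w ∈ g p, K.pi w = 0 ∧ K.D w = v := by
  have hpD : ∀ w, K.pi w = 0 → K.pi (K.D w) = 0 := fun w => K.pi_D
  have hN : ∀ w, K.pi w = 0 → K.N w = K.D (K.s w) + K.s (K.D w) - w := by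
    intro w hw
    rw [K.homotopy_D, hw, sub_zero, add_sub_cancel_left]
  have hpN : ∀ w, K.pi w = 0 → K.pi (K.N w) = 0 := by
    intro w hw
    rw [hN w hw, map_sub, map_add, K.pi_s, hpD _ (K.pi_s w), hw, add_zero, sub_zero]
  obtain ⟨n, hn⟩ := exists_fil v
  have hn' := K.N_pow n v hn
  clear hn
  induction n generalizing v with
  | zero =>
    rw [pow_zero, Module.End.one_apply] at hn'
    exact ⟨0, Submodule.zero_mem _, map_zero _, by rw [map_zero, hn']⟩
  | succ n ih =>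
    rw [pow_succ, Module.End.mul_apply] at hn'
    have h1 := hN v hpi
    rw [hDv, map_zero, add_zero] at h1
    have h3 : K.N v ∈ g (p + 1) := by
      rw [h1]
      exact Submodule.sub_mem _ (hDg p _ (hsg p v hv)) hv
    obtain ⟨w, hw, hw1, hw2⟩ := ih (K.N v) h3 (hpN v hpi)
      (by rw [h1, map_sub, hD, hDv, sub_zero]) hn'
    refine ⟨K.s v - w, Submodule.sub_mem _ (hsg p v hv) hw, ?_, ?_⟩
    · rw [map_sub, K.pi_s, hw1, sub_zero]
    · rw [map_sub, hw2, h1, sub_sub_cancel]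

end KD

end

end Vale.Agent.P286.H341
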